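import Crest.Agent.Lib.Saxl.Tb.G.Table
import Crest.Agent.Lib.Saxl.PolyCert

set_option autoImplicit false

namespace Crest.Agent.Lib.Saxl.Tb.G

open Crest.Agent.Lib.Saxl Crest.Agent.Lib.Saxl.Tb

theorem b0 : Gd ([2,1], [2,1], [2,1]) :=
  ⟨by decide, by decide, by decide, cert_Q (ls := [((0,0),(0,0),(0,1)),((0,1),(0,1),(1,0)),((1,0),(1,0),(0,0))]) (T := [(0,0,0),(0,0,0),(1,1,1)]) (by decide +kernel)⟩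

theorem b1 : Gd ([2,2], [2,2], [2,2]) :=
  ⟨by decide, by decide, by decide, cert_Q (ls := [((0,0),(1,1),(0,0)),((1,0),(0,0),(0,1)),((1,1),(1,0),(1,1)),((0,1),(0,1),(1,0))]) (T := [(0,1,0),(0,1,0),(1,0,1),(1,0,1)]) (by decide +kernel)⟩

theorem b2 : Gd ([2,2,2], [3,2,1], [3,2,1]) :=
  ⟨by decide, by decide, by decide, cert_Q (ls := [((2,1),(0,2),(0,1)),((1,1),(1,0),(0,2)),((0,1),(2,0),(1,0)),((0,0),(1,1),(1,1)),((2,0),(0,1),(0,0)),((1,0),(0,0),(2,0))]) (T := [(0,0,2),(0,2,0),(1,1,1),(1,1,1),(2,0,0),(2,0,0)]) (by decide +kernel)⟩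

theorem b3 : Gd ([2,2,1], [2,2,1], [2,2,1]) :=
  ⟨by decide, by decide, by decide, cert_Q (ls := [((1,1),(0,0),(1,1)),((0,1),(0,1),(0,0)),((0,0),(1,0),(0,1)),((2,0),(1,1),(2,0)),((1,0),(2,0),(1,0))]) (T := [(0,1,0),(0,1,0),(1,0,1),(1,2,2),(2,0,1)]) (by decide +kernel)⟩

theorem b4 : Gd ([2,2,2], [3,1,1,1], [4,1,1]) :=
  ⟨by decide, by decide, by decide, cert_Q (ls := [((0,1),(0,2),(1,0)),((1,1),(0,1),(0,0)),((2,1),(0,0),(0,3)),((0,0),(2,0),(2,0)),((2,0),(3,0),(0,2)),((1,0),(1,0),(0,1))]) (T := [(0,0,1),(0,3,0),(1,1,0),(1,2,2),(2,0,0),(2,0,0)]) (by decide +kernel)⟩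

theorem b5 : Gd ([3,3,2], [4,2,1,1], [4,2,1,1]) :=
  ⟨by decide, by decide, by decide, cert_Q (ls := [((2,0),(0,0),(0,1)),((0,0),(1,1),(0,2)),((0,2),(0,1),(2,0)),((2,1),(0,3),(1,1)),((1,1),(3,0),(0,3)),((0,1),(2,0),(1,0)),((1,0),(0,2),(3,0)),((1,2),(1,0),(0,0))]) (T := [(0,0,0),(0,0,0),(0,0,0),(1,1,1),(1,1,1),(1,2,2),(2,0,3),(2,3,0)]) (by decide +kernel)⟩

theorem b6 : Gd ([2,2,2,2,2], [4,3,2,1], [4,3,2,1]) :=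
  ⟨by decide, by decide, by decide, cert_Q (ls := [((1,1),(0,2),(0,3)),((3,0),(0,1),(1,1)),((1,0),(1,2),(2,1)),((2,0),(0,3),(0,2)),((2,1),(3,0),(1,2)),((0,0),(2,1),(2,0)),((0,1),(1,0),(3,0)),((3,1),(1,1),(1,0)),((4,1),(2,0),(0,1)),((4,0),(0,0),(0,0))]) (T := [(0,0,0),(0,3,1),(1,2,0),(1,2,0),(2,0,2),(2,0,2),(3,1,0),(3,1,3),(4,0,1),(4,1,1)]) (by decide +kernel)⟩

theorem b7 : Gd ([2,2,2], [2,2,2], [2,2,2]) :=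
  ⟨by decide, by decide, by decide, cert_Q (ls := [((1,0),(1,0),(1,1)),((0,1),(0,1),(0,1)),((1,1),(0,0),(1,0)),((0,0),(2,0),(2,0)),((2,1),(1,1),(0,0)),((2,0),(2,1),(2,1))]) (T := [(0,1,2),(0,1,2),(1,0,1),(1,0,1),(2,2,0),(2,2,0)]) (by decide +kernel)⟩

theorem b8 : Gd ([2,2,1,1,1], [3,2,2], [3,2,2]) :=
  ⟨by decide, by decide, by decide, cert_Q (ls := [((3,0),(0,2),(1,1)),((1,1),(2,0),(1,0)),((0,1),(1,0),(2,1)),((1,0),(0,0),(2,0)),((0,0),(0,1),(0,0)),((4,0),(2,1),(0,1)),((2,0),(1,1),(0,2))]) (T := [(0,0,0),(0,0,0),(1,0,2),(1,2,1),(2,2,1),(3,1,2),(4,1,0)]) (by decide +kernel)⟩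

theorem b9 : Gd ([3,2,2,2], [3,3,3], [3,3,3]) :=
  ⟨by decide, by decide, by decide, cert_Q (ls := [((0,0),(0,2),(0,1)),((1,0),(1,2),(0,2)),((0,2),(0,0),(1,2)),((2,1),(0,1),(1,0)),((3,1),(1,0),(2,1)),((2,0),(1,1),(0,0)),((0,1),(2,0),(2,0)),((3,0),(2,1),(1,1)),((1,1),(2,2),(2,2))]) (T := [(0,1,0),(0,1,0),(0,1,0),(1,2,2),(1,2,2),(2,0,1),(2,0,1),(3,0,2),(3,2,1)]) (by decide +kernel)⟩

theorem b10 : Gd ([3,3,3,1], [3,3,3,1], [4,2,2,1,1]) :=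
  ⟨by decide, by decide, by decide, cert_Q (ls := [((2,2),(2,2),(0,3)),((0,2),(2,0),(0,1)),((1,2),(0,2),(0,2)),((0,1),(1,2),(0,0)),((1,1),(2,1),(4,0)),((2,0),(0,0),(2,1)),((0,0),(0,1),(1,1)),((1,0),(1,1),(3,0)),((3,0),(3,0),(1,0)),((2,1),(1,0),(2,0))]) (T := [(0,0,4),(0,2,2),(0,2,2),(1,0,0),(1,0,0),(1,1,3),(2,1,0),(2,1,1),(2,3,0),(3,2,1)]) (by decide +kernel)⟩

theorem b11 : Gd ([3,3,3,2], [4,3,3,1], [4,3,3,1]) :=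
  ⟨by decide, by decide, by decide, cert_Q (ls := [((2,0),(0,1),(2,1)),((2,1),(1,2),(1,2)),((0,1),(0,2),(1,1)),((1,2),(2,2),(0,2)),((0,0),(0,3),(0,3)),((2,2),(1,0),(0,1)),((3,0),(2,1),(2,2)),((1,0),(0,0),(1,0)),((0,2),(2,0),(2,0)),((3,1),(1,1),(0,0)),((1,1),(3,0),(3,0))]) (T := [(0,0,1),(0,0,2),(0,2,3),(1,0,0),(1,2,2),(1,3,2),(2,1,0),(2,1,0),(2,1,0),(3,0,1),(3,2,1)]) (by decide +kernel)⟩

theorem b12 : Gd ([3,3,2,2], [3,3,3,1], [3,3,3,1]) :=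
  ⟨by decide, by decide, by decide, cert_Q (ls := [((1,2),(1,1),(0,2)),((1,1),(0,1),(1,1)),((3,0),(2,1),(2,1)),((0,2),(2,2),(0,0)),((0,0),(1,2),(3,0)),((3,1),(0,2),(1,2)),((1,0),(0,0),(2,2)),((0,1),(1,0),(2,0)),((2,0),(2,0),(1,0)),((2,1),(3,0),(0,1))]) (T := [(0,1,0),(0,1,0),(0,3,2),(1,0,2),(1,2,1),(1,2,1),(2,0,2),(2,2,1),(3,0,0),(3,1,3)]) (by decide +kernel)⟩

theorem b13 : Gd ([4,3,3,3], [5,3,3,1,1], [5,3,3,1,1]) :=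
  ⟨by decide, by decide, by decide, cert_Q (ls := [((0,3),(4,0),(0,1)),((3,2),(1,2),(0,3)),((1,0),(0,1),(0,4)),((2,0),(2,2),(2,2)),((1,1),(0,2),(2,1)),((0,2),(0,3),(1,1)),((3,0),(0,0),(4,0)),((0,0),(2,0),(0,2)),((2,1),(1,1),(3,0)),((2,2),(2,1),(2,0)),((0,1),(0,4),(0,0)),((3,1),(1,0),(1,0)),((1,2),(3,0),(1,2))]) (T := [(0,0,0),(0,0,0),(0,1,1),(0,2,1),(1,2,0),(1,2,1),(1,4,0),(2,0,4),(2,1,2),(2,1,3),(3,0,2),(3,0,2),(3,3,0)]) (by decide +kernel)⟩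

theorem b14 : Gd ([4,4,3,2], [5,3,3,1,1], [5,3,3,1,1]) :=
  ⟨by decide, by decide, by decide, cert_Q (ls := [((0,1),(0,2),(1,2)),((0,3),(0,3),(2,2)),((1,1),(1,2),(0,3)),((0,0),(0,0),(0,2)),((2,1),(2,2),(3,0)),((1,0),(1,1),(1,0)),((3,1),(0,1),(2,1)),((2,0),(1,0),(0,4)),((1,3),(2,1),(4,0)),((2,2),(0,4),(0,0)),((0,2),(4,0),(1,1)),((3,0),(2,0),(0,1)),((1,2),(3,0),(2,0))]) (T := [(0,0,0),(0,0,2),(0,0,2),(0,3,0),(1,1,1),(1,1,1),(1,2,0),(1,2,2),(2,0,0),(2,1,0),(2,2,4),(3,0,3),(3,4,1)]) (by decide +kernel)⟩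

theorem b15 : Gd ([3,2,2], [3,2,2], [3,3,1]) :=
  ⟨by decide, by decide, by decide, cert_Q (ls := [((0,2),(0,1),(0,2)),((2,1),(0,2),(0,1)),((1,0),(2,1),(1,2)),((0,1),(1,1),(2,0)),((0,0),(1,0),(1,1)),((2,0),(2,0),(0,0)),((1,1),(0,0),(1,0))]) (T := [(0,0,1),(0,0,1),(0,2,2),(1,0,0),(1,2,1),(2,1,0),(2,1,0)]) (by decide +kernel)⟩

theorem b16 : Gd ([2,2,2,1], [3,2,2], [3,2,2]) :=
  ⟨by decide, by decide, by decide, cert_Q (ls := [((1,1),(0,0),(0,2)),((2,1),(1,1),(0,1)),((1,0),(0,1),(1,1)),((0,1),(0,2),(1,0)),((0,0),(1,0),(2,0)),((3,0),(2,0),(2,1)),((2,0),(2,1),(0,0))]) (T := [(0,2,2),(0,2,2),(1,1,0),(1,1,1),(2,0,0),(2,0,0),(3,0,1)]) (by decide +kernel)⟩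

theorem b17 : Gd ([2,2,2,1,1], [3,3,1,1], [3,3,1,1]) :=
  ⟨by decide, by decide, by decide, cert_Q (ls := [((1,1),(3,0),(1,2)),((2,0),(0,0),(1,1)),((3,0),(1,0),(0,2)),((0,0),(2,0),(2,0)),((1,0),(0,2),(0,0)),((4,0),(1,1),(1,0)),((0,1),(0,1),(0,1)),((2,1),(1,2),(3,0))]) (T := [(0,2,2),(0,3,0),(1,1,1),(1,1,1),(2,0,0),(2,1,3),(3,0,1),(4,0,0)]) (by decide +kernel)⟩

theorem b18 : Gd ([3,3,2,2,2], [3,3,2,2,2], [3,3,2,2,2]) :=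
  ⟨by decide, by decide, by decide, cert_Q (ls := [((3,1),(0,2),(1,2)),((1,1),(0,1),(4,1)),((0,0),(2,1),(1,0)),((1,2),(2,0),(4,0)),((0,2),(3,1),(3,0)),((0,1),(4,1),(0,0)),((2,1),(0,0),(1,1)),((4,1),(3,0),(0,2)),((3,0),(1,0),(0,1)),((2,0),(1,1),(2,1)),((4,0),(1,2),(3,1)),((1,0),(4,0),(2,0))]) (T := [(0,0,3),(0,3,0),(0,4,1),(1,0,0),(1,1,2),(1,3,1),(2,0,2),(2,1,4),(3,2,4),(3,4,1),(4,1,3),(4,2,0)]) (by decide +kernel)⟩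

theorem b19 : Gd ([2,2,2,2,2], [3,3,3,1], [3,3,3,1]) :=
  ⟨by decide, by decide, by decide, cert_Q (ls := [((3,1),(1,2),(3,0)),((3,0),(2,2),(0,2)),((1,0),(0,0),(1,1)),((0,0),(0,2),(2,0)),((2,0),(0,1),(1,0)),((4,0),(3,0),(0,0)),((0,1),(2,0),(0,1)),((2,1),(1,1),(2,1)),((1,1),(2,1),(1,2)),((4,1),(1,0),(2,2))]) (T := [(0,1,2),(0,1,2),(1,2,0),(1,3,0),(2,2,1),(2,2,2),(3,0,1),(3,0,1),(4,0,3),(4,1,0)]) (by decide +kernel)⟩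

theorem b20 : Gd ([2,2,2,2,1], [3,3,2,1], [3,3,3]) :=
  ⟨by decide, by decide, by decide, cert_Q (ls := [((3,1),(3,0),(1,2)),((3,0),(1,2),(0,2)),((0,1),(0,2),(0,1)),((2,1),(1,0),(1,0)),((1,1),(2,1),(2,0)),((1,0),(2,0),(0,0)),((4,0),(0,0),(1,1)),((2,0),(0,1),(2,2)),((0,0),(1,1),(2,1))]) (T := [(0,1,2),(0,1,2),(1,1,1),(1,3,1),(2,0,0),(2,0,0),(3,0,1),(3,2,2),(4,2,0)]) (by decide +kernel)⟩

theorem b21 : Gd ([2,2,1,1], [2,2,2], [3,2,1]) :=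
  ⟨by decide, by decide, by decide, cert_Q (ls := [((0,1),(0,0),(2,0)),((2,0),(2,0),(1,1)),((1,1),(1,1),(0,1)),((1,0),(0,1),(0,2)),((0,0),(2,1),(1,0)),((3,0),(1,0),(0,0))]) (T := [(0,1,0),(0,1,0),(1,0,1),(1,0,1),(2,2,2),(3,2,0)]) (by decide +kernel)⟩

theorem b22 : Gd ([2,2,2,2,1], [3,2,2,1,1], [3,3,3]) :=
  ⟨by decide, by decide, by decide, cert_Q (ls := [((3,0),(2,1),(2,2)),((2,1),(1,0),(1,1)),((0,1),(0,2),(1,2)),((3,1),(1,1),(2,1)),((0,0),(0,1),(0,0)),((1,1),(2,0),(2,0)),((4,0),(3,0),(0,1)),((2,0),(0,0),(0,2)),((1,0),(4,0),(1,0))]) (T := [(0,0,0),(0,3,1),(1,1,1),(1,1,1),(2,2,2),(2,4,0),(3,0,2),(3,2,0),(4,0,2)]) (by decide +kernel)⟩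

theorem b23 : Gd ([2,2,2,1,1], [3,3,2], [3,3,2]) :=
  ⟨by decide, by decide, by decide, cert_Q (ls := [((0,1),(0,2),(1,0)),((1,1),(1,2),(0,2)),((2,1),(2,0),(2,1)),((1,0),(0,0),(1,1)),((3,0),(1,1),(0,1)),((4,0),(2,1),(1,2)),((0,0),(1,0),(2,0)),((2,0),(0,1),(0,0))]) (T := [(0,0,0),(0,0,0),(1,1,2),(1,2,0),(2,0,1),(2,2,1),(3,1,1),(4,1,2)]) (by decide +kernel)⟩

theorem b24 : Gd ([2,2,2,2], [3,3,2], [3,3,2]) :=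
  ⟨by decide, by decide, by decide, cert_Q (ls := [((3,1),(1,2),(0,2)),((2,0),(0,2),(1,2)),((0,1),(0,0),(2,0)),((0,0),(2,0),(2,1)),((2,1),(1,0),(1,1)),((1,1),(1,1),(0,0)),((1,0),(0,1),(1,0)),((3,0),(2,1),(0,1))]) (T := [(0,0,2),(0,0,2),(1,1,1),(1,2,0),(2,0,1),(2,1,1),(3,1,0),(3,2,0)]) (by decide +kernel)⟩

theorem b25 : Gd ([2,2,2,2,1,1], [3,3,2,2], [3,3,2,2]) :=
  ⟨by decide, by decide, by decide, cert_Q (ls := [((5,0),(2,0),(0,2)),((0,1),(1,2),(2,0)),((3,0),(0,2),(0,1)),((2,0),(3,0),(0,0)),((2,1),(3,1),(1,2)),((3,1),(1,0),(2,1)),((4,0),(0,0),(1,1)),((1,0),(0,1),(3,1)),((0,0),(1,1),(1,0)),((1,1),(2,1),(3,0))]) (T := [(0,0,0),(0,0,0),(1,1,1),(1,3,1),(2,0,2),(2,3,1),(3,2,3),(3,2,3),(4,1,2),(5,1,0)]) (by decide +kernel)⟩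

theorem b26 : Gd ([3,3,3], [3,3,3], [3,3,3]) :=
  ⟨by decide, by decide, by decide, cert_Q (ls := [((2,0),(2,0),(1,1)),((2,1),(0,0),(1,0)),((0,0),(1,1),(0,1)),((1,2),(2,2),(2,1)),((2,2),(1,0),(1,2)),((1,1),(0,1),(2,0)),((1,0),(0,2),(0,2)),((0,1),(1,2),(2,2)),((0,2),(2,1),(0,0))]) (T := [(0,1,0),(0,1,0),(0,2,1),(1,0,1),(1,0,1),(1,1,2),(2,0,0),(2,2,2),(2,2,2)]) (by decide +kernel)⟩

theorem b27 : Gd ([2,2,2,2], [3,2,2,1], [3,3,2]) :=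
  ⟨by decide, by decide, by decide, cert_Q (ls := [((3,1),(0,2),(1,2)),((1,1),(0,1),(2,0)),((2,0),(2,0),(0,2)),((0,1),(1,0),(1,1)),((2,1),(0,0),(1,0)),((0,0),(1,1),(0,1)),((1,0),(2,1),(0,0)),((3,0),(3,0),(2,1))]) (T := [(0,0,2),(0,1,1),(1,1,1),(1,3,0),(2,2,0),(2,2,0),(3,0,1),(3,0,2)]) (by decide +kernel)⟩

theorem b28 : Gd ([3,2,2,2], [3,2,2,2], [3,3,1,1,1]) :=
  ⟨by decide, by decide, by decide, cert_Q (ls := [((0,2),(2,0),(3,0)),((3,1),(0,2),(1,0)),((0,1),(2,1),(0,1)),((2,1),(3,0),(2,0)),((1,1),(3,1),(1,2)),((1,0),(1,0),(1,1)),((3,0),(1,1),(0,2)),((2,0),(0,1),(0,0)),((0,0),(0,0),(4,0))]) (T := [(0,0,0),(0,3,1),(0,3,1),(1,0,0),(1,1,0),(2,1,4),(2,2,3),(3,0,1),(3,2,2)]) (by decide +kernel)⟩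

theorem b29 : Gd ([3,2,1,1,1,1], [3,2,2,2], [3,2,2,2]) :=
  ⟨by decide, by decide, by decide, cert_Q (ls := [((0,0),(0,2),(3,0)),((4,0),(0,1),(1,0)),((0,2),(0,0),(2,0)),((1,1),(3,1),(2,1)),((2,0),(3,0),(0,0)),((5,0),(2,1),(0,2)),((1,0),(2,0),(1,1)),((3,0),(1,1),(3,1)),((0,1),(1,0),(0,1))]) (T := [(0,1,0),(0,1,0),(0,3,3),(1,2,1),(1,2,1),(2,0,2),(3,3,2),(4,0,3),(5,0,0)]) (by decide +kernel)⟩

theorem b30 : Gd ([3,3,1,1,1,1], [3,3,1,1,1,1], [3,3,1,1,1,1]) :=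
  ⟨by decide, by decide, by decide, cert_Q (ls := [((0,0),(1,0),(0,0)),((3,0),(1,2),(1,0)),((2,0),(1,1),(3,0)),((1,1),(0,1),(5,0)),((0,1),(5,0),(4,0)),((1,2),(3,0),(2,0)),((0,2),(2,0),(1,1)),((5,0),(4,0),(0,1)),((4,0),(0,2),(0,2)),((1,0),(0,0),(1,2))]) (T := [(0,1,0),(0,3,4),(0,5,2),(1,0,0),(1,0,0),(1,1,3),(2,0,1),(3,2,1),(4,4,5),(5,1,1)]) (by decide +kernel)⟩

theorem b31 : Gd ([3,3,1,1,1], [3,3,1,1,1], [3,3,3]) :=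
  ⟨by decide, by decide, by decide, cert_Q (ls := [((0,0),(0,1),(0,1)),((1,0),(1,1),(1,0)),((3,0),(1,0),(1,1)),((4,0),(1,2),(2,1)),((2,0),(0,0),(0,0)),((0,2),(4,0),(2,0)),((1,1),(0,2),(1,2)),((0,1),(2,0),(2,2)),((1,2),(3,0),(0,2))]) (T := [(0,0,1),(0,0,1),(0,1,2),(1,1,0),(1,1,2),(1,2,0),(2,3,1),(3,4,2),(4,0,0)]) (by decide +kernel)⟩

theorem b32 : Gd ([2,2,2,1], [3,2,2], [3,3,1]) :=
  ⟨by decide, by decide, by decide, cert_Q (ls := [((0,1),(1,1),(1,2)),((2,0),(0,2),(0,1)),((2,1),(1,0),(1,1)),((1,0),(0,1),(2,0)),((3,0),(2,1),(0,2)),((0,0),(2,0),(1,0)),((1,1),(0,0),(0,0))]) (T := [(0,1,0),(0,1,0),(1,0,1),(1,0,1),(2,0,2),(2,2,1),(3,2,0)]) (by decide +kernel)⟩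

theorem b33 : Gd ([3,2,1,1], [3,2,2], [3,2,2]) :=
  ⟨by decide, by decide, by decide, cert_Q (ls := [((1,1),(1,0),(0,2)),((0,2),(1,1),(0,0)),((0,0),(0,2),(1,0)),((0,1),(0,1),(1,1)),((2,0),(2,0),(2,0)),((3,0),(2,1),(2,1)),((1,0),(0,0),(0,1))]) (T := [(0,0,2),(0,0,2),(0,1,1),(1,0,0),(1,2,1),(2,1,0),(3,2,0)]) (by decide +kernel)⟩

theorem b34 : Gd ([3,3,2], [3,3,2], [4,2,1,1]) :=
  ⟨by decide, by decide, by decide, cert_Q (ls := [((1,0),(1,0),(0,1)),((0,0),(0,2),(0,2)),((1,1),(1,2),(1,0)),((2,0),(2,1),(0,3)),((2,1),(0,1),(1,1)),((0,2),(0,0),(0,0)),((0,1),(2,0),(2,0)),((1,2),(1,1),(3,0))]) (T := [(0,1,0),(0,1,0),(0,1,1),(1,0,2),(1,2,0),(1,2,0),(2,0,1),(2,0,3)]) (by decide +kernel)⟩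

theorem b35 : Gd ([2,2,2,1,1,1], [3,3,3], [3,3,3]) :=
  ⟨by decide, by decide, by decide, cert_Q (ls := [((1,1),(0,1),(0,1)),((2,1),(2,1),(1,0)),((4,0),(1,0),(2,0)),((2,0),(1,1),(2,2)),((0,1),(1,2),(0,0)),((3,0),(0,2),(1,2)),((0,0),(2,0),(2,1)),((1,0),(2,2),(1,1)),((5,0),(0,0),(0,2))]) (T := [(0,1,2),(0,1,2),(1,0,0),(1,0,0),(2,2,1),(2,2,1),(3,1,0),(4,2,2),(5,0,1)]) (by decide +kernel)⟩

theorem b36 : Gd ([3,2,2,2], [3,2,2,2], [3,3,3]) :=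
  ⟨by decide, by decide, by decide, cert_Q (ls := [((0,2),(2,0),(2,0)),((0,1),(1,0),(1,2)),((1,1),(0,2),(1,1)),((3,1),(1,1),(2,2)),((2,1),(3,1),(0,0)),((1,0),(0,0),(1,0)),((2,0),(0,1),(0,2)),((0,0),(2,1),(2,1)),((3,0),(3,0),(0,1))]) (T := [(0,0,2),(0,1,0),(0,2,2),(1,0,0),(1,0,0),(2,1,1),(2,2,2),(3,3,1),(3,3,1)]) (by decide +kernel)⟩

theorem b37 : Gd ([3,3,3,1], [3,3,3,1], [4,4,1,1]) :=
  ⟨by decide, by decide, by decide, cert_Q (ls := [((1,0),(1,2),(1,3)),((0,0),(2,1),(2,0)),((2,0),(1,0),(3,0)),((0,2),(0,0),(0,0)),((1,1),(3,0),(0,3)),((2,2),(2,0),(1,1)),((2,1),(0,1),(1,0)),((3,0),(1,1),(0,1)),((1,2),(2,2),(0,2)),((0,1),(0,2),(1,2))]) (T := [(0,0,0),(0,0,0),(0,0,0),(1,2,0),(1,2,1),(1,2,2),(2,1,1),(2,1,1),(2,1,3),(3,3,1)]) (by decide +kernel)⟩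

theorem b38 : Gd ([3,3,3], [3,3,3], [4,2,1,1,1]) :=
  ⟨by decide, by decide, by decide, cert_Q (ls := [((0,0),(0,0),(0,1)),((2,1),(1,2),(0,3)),((0,2),(0,1),(1,1)),((2,0),(0,2),(0,2)),((1,2),(2,2),(1,0)),((1,1),(1,0),(2,0)),((1,0),(2,0),(0,0)),((0,1),(2,1),(3,0)),((2,2),(1,1),(4,0))]) (T := [(0,1,0),(0,1,0),(0,1,0),(1,0,2),(1,2,1),(1,2,1),(2,0,0),(2,0,4),(2,2,3)]) (by decide +kernel)⟩

theorem b39 : Gd ([2,2,2,2,1,1], [3,3,3,1], [3,3,3,1]) :=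
  ⟨by decide, by decide, by decide, cert_Q (ls := [((0,1),(0,0),(0,2)),((1,1),(0,1),(1,0)),((3,1),(1,1),(2,1)),((1,0),(2,0),(0,1)),((2,1),(2,2),(3,0)),((4,0),(2,1),(2,2)),((3,0),(3,0),(2,0)),((2,0),(1,0),(1,2)),((0,0),(0,2),(1,1)),((5,0),(1,2),(0,0))]) (T := [(0,1,2),(0,1,2),(1,0,1),(1,3,1),(2,2,0),(2,2,0),(3,0,0),(3,1,3),(4,0,2),(5,2,1)]) (by decide +kernel)⟩

theorem b40 : Gd ([3,3,3], [3,3,3], [4,2,2,1]) :=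
  ⟨by decide, by decide, by decide, cert_Q (ls := [((1,0),(1,1),(3,0)),((0,0),(1,0),(0,3)),((2,1),(0,0),(1,1)),((0,1),(2,2),(2,0)),((1,1),(2,0),(0,0)),((2,0),(2,1),(0,2)),((0,2),(0,2),(0,1)),((2,2),(1,2),(1,0)),((1,2),(0,1),(2,1))]) (T := [(0,0,1),(0,0,1),(0,2,0),(1,0,3),(1,2,2),(1,2,2),(2,1,0),(2,1,0),(2,1,0)]) (by decide +kernel)⟩

theorem b41 : Gd ([3,2,2,2,1], [3,3,3,1], [3,3,3,1]) :=
  ⟨by decide, by decide, by decide, cert_Q (ls := [((0,1),(1,0),(1,0)),((1,1),(0,2),(3,0)),((3,1),(1,2),(2,2)),((0,2),(2,2),(0,2)),((2,0),(0,1),(2,0)),((2,1),(1,1),(1,1)),((3,0),(0,0),(1,2)),((1,0),(2,0),(0,0)),((4,0),(3,0),(0,1)),((0,0),(2,1),(2,1))]) (T := [(0,1,0),(0,2,0),(0,3,0),(1,1,2),(1,1,2),(2,0,3),(2,2,2),(3,0,1),(3,0,1),(4,2,1)]) (by decide +kernel)⟩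

theorem b42 : Gd ([2,2,2,2], [3,2,1,1,1], [3,3,2]) :=
  ⟨by decide, by decide, by decide, cert_Q (ls := [((2,1),(0,2),(0,2)),((3,1),(4,0),(1,0)),((0,1),(1,1),(2,0)),((3,0),(0,0),(1,2)),((0,0),(0,1),(1,1)),((2,0),(3,0),(0,1)),((1,0),(2,0),(0,0)),((1,1),(1,0),(2,1))]) (T := [(0,2,2),(0,3,0),(1,1,0),(1,1,0),(2,0,1),(2,0,1),(3,0,2),(3,4,1)]) (by decide +kernel)⟩

theorem b43 : Gd ([2,2,2,2,2], [3,2,2,2,1], [4,4,2]) :=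
  ⟨by decide, by decide, by decide, cert_Q (ls := [((3,0),(0,2),(2,0)),((2,0),(2,0),(1,1)),((1,0),(1,1),(0,1)),((4,0),(2,1),(1,2)),((0,1),(0,0),(2,1)),((0,0),(0,1),(1,0)),((4,1),(3,0),(0,2)),((2,1),(3,1),(0,3)),((1,1),(4,0),(0,0)),((3,1),(1,0),(1,3))]) (T := [(0,1,0),(0,3,1),(1,0,0),(1,0,0),(2,2,1),(2,2,1),(3,1,0),(3,3,2),(4,0,1),(4,4,2)]) (by decide +kernel)⟩

theorem b44 : Gd ([3,3,2,1], [3,3,2,1], [3,3,2,1]) :=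
  ⟨by decide, by decide, by decide, cert_Q (ls := [((0,2),(0,1),(1,2)),((1,0),(0,2),(0,2)),((2,0),(2,1),(1,1)),((0,1),(1,0),(0,1)),((0,0),(1,2),(2,1)),((3,0),(2,0),(0,0)),((2,1),(1,1),(3,0)),((1,1),(3,0),(1,0)),((1,2),(0,0),(2,0))]) (T := [(0,0,0),(0,0,0),(0,1,2),(1,2,1),(1,2,1),(1,3,0),(2,0,2),(2,1,3),(3,1,1)]) (by decide +kernel)⟩

theorem b45 : Gd ([2,2,2,2,2], [3,2,2,2,1], [3,3,3,1]) :=
  ⟨by decide, by decide, by decide, cert_Q (ls := [((1,0),(2,0),(0,1)),((0,0),(0,2),(1,2)),((3,0),(2,1),(1,1)),((0,1),(4,0),(2,0)),((2,0),(3,1),(0,0)),((4,0),(1,0),(3,0)),((2,1),(1,1),(1,0)),((4,1),(0,1),(0,2)),((3,1),(3,0),(2,1)),((1,1),(0,0),(2,2))]) (T := [(0,0,1),(0,0,3),(1,1,2),(1,2,0),(2,1,2),(2,2,0),(3,3,1),(3,3,1),(4,0,2),(4,4,0)]) (by decide +kernel)⟩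

theorem b46 : Gd ([3,3,2], [3,3,2], [3,3,2]) :=
  ⟨by decide, by decide, by decide, cert_Q (ls := [((0,0),(2,1),(1,2)),((1,2),(0,2),(1,0)),((2,0),(0,0),(2,0)),((2,1),(1,2),(0,0)),((1,0),(2,0),(0,2)),((0,1),(0,1),(0,1)),((0,2),(1,1),(2,1)),((1,1),(1,0),(1,1))]) (T := [(0,0,0),(0,2,1),(0,2,1),(1,0,2),(1,0,2),(1,1,1),(2,1,0),(2,1,0)]) (by decide +kernel)⟩

theorem b47 : Gd ([3,3,1,1], [3,3,1,1], [3,3,2]) :=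
  ⟨by decide, by decide, by decide, cert_Q (ls := [((2,0),(0,2),(0,2)),((0,0),(1,2),(1,0)),((0,2),(1,1),(1,2)),((3,0),(0,1),(2,0)),((0,1),(0,0),(1,1)),((1,2),(3,0),(2,1)),((1,0),(2,0),(0,1)),((1,1),(1,0),(0,0))]) (T := [(0,0,1),(0,0,1),(0,1,2),(1,1,0),(1,1,0),(1,3,0),(2,0,2),(3,2,1)]) (by decide +kernel)⟩

theorem b48 : Gd ([3,3,1,1], [3,3,1,1], [3,3,1,1]) :=
  ⟨by decide, by decide, by decide, cert_Q (ls := [((0,2),(2,0),(1,1)),((1,1),(1,0),(1,2)),((1,0),(3,0),(0,1)),((0,1),(0,2),(2,0)),((1,2),(0,1),(3,0)),((3,0),(1,2),(0,2)),((0,0),(1,1),(1,0)),((2,0),(0,0),(0,0))]) (T := [(0,0,1),(0,0,1),(0,2,3),(1,1,0),(1,1,0),(1,3,1),(2,0,0),(3,1,2)]) (by decide +kernel)⟩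

theorem b49 : Gd ([2,2,2,2,2], [3,3,2,1,1], [3,3,2,2]) :=
  ⟨by decide, by decide, by decide, cert_Q (ls := [((4,1),(0,0),(2,1)),((0,0),(1,0),(0,0)),((0,1),(2,0),(2,0)),((3,1),(2,1),(3,0)),((4,0),(3,0),(1,2)),((1,1),(1,2),(1,0)),((2,1),(0,1),(3,1)),((3,0),(0,2),(0,2)),((2,0),(1,1),(0,1)),((1,0),(4,0),(1,1))]) (T := [(0,2,1),(0,2,1),(1,1,0),(1,4,1),(2,0,3),(2,3,3),(3,1,2),(3,1,2),(4,0,0),(4,0,0)]) (by decide +kernel)⟩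

theorem b50 : Gd ([3,3,1,1,1,1], [3,3,2,2], [3,3,2,2]) :=
  ⟨by decide, by decide, by decide, cert_Q (ls := [((4,0),(1,1),(0,2)),((0,1),(0,0),(0,1)),((1,1),(0,2),(2,1)),((1,2),(1,0),(3,1)),((0,0),(1,2),(0,0)),((2,0),(3,0),(1,2)),((0,2),(3,1),(3,0)),((3,0),(0,1),(1,1)),((5,0),(2,1),(2,0)),((1,0),(2,0),(1,0))]) (T := [(0,0,1),(0,0,1),(0,1,0),(1,0,2),(1,2,0),(1,2,0),(2,3,2),(3,3,3),(4,1,1),(5,1,3)]) (by decide +kernel)⟩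

theorem b51 : Gd ([2,2,2,2,2], [3,3,3,1], [4,3,1,1,1]) :=
  ⟨by decide, by decide, by decide, cert_Q (ls := [((1,0),(0,1),(0,3)),((0,1),(0,2),(0,2)),((4,0),(1,1),(1,0)),((2,0),(2,2),(0,1)),((3,0),(2,0),(1,1)),((3,1),(2,1),(0,0)),((0,0),(1,0),(2,0)),((2,1),(3,0),(1,2)),((4,1),(1,2),(4,0)),((1,1),(0,0),(3,0))]) (T := [(0,1,2),(0,2,1),(1,1,4),(1,3,0),(2,0,1),(2,0,1),(3,2,0),(3,2,0),(4,0,0),(4,1,3)]) (by decide +kernel)⟩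

theorem b52 : Gd ([3,2,2,2], [3,2,2,2], [4,3,2]) :=
  ⟨by decide, by decide, by decide, cert_Q (ls := [((0,1),(1,1),(0,1)),((1,1),(3,0),(0,0)),((2,1),(0,0),(0,3)),((3,1),(2,0),(2,1)),((0,2),(0,1),(1,0)),((3,0),(2,1),(1,1)),((2,0),(0,2),(0,2)),((0,0),(1,0),(2,0)),((1,0),(3,1),(1,2))]) (T := [(0,0,1),(0,0,2),(0,0,2),(1,1,0),(1,1,0),(2,2,0),(2,2,0),(3,3,1),(3,3,1)]) (by decide +kernel)⟩

theorem b53 : Gd ([3,3,2,2], [3,3,2,2], [4,4,1,1]) :=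
  ⟨by decide, by decide, by decide, cert_Q (ls := [((0,2),(0,2),(0,0)),((0,0),(1,1),(1,1)),((1,1),(1,2),(0,1)),((3,1),(3,1),(0,2)),((1,2),(3,0),(1,2)),((2,1),(1,0),(2,0)),((0,1),(2,1),(1,3)),((1,0),(0,0),(0,3)),((3,0),(0,1),(3,0)),((2,0),(2,0),(1,0))]) (T := [(0,0,3),(0,2,0),(0,3,1),(1,1,1),(1,1,1),(1,3,2),(2,1,0),(2,2,1),(3,0,0),(3,0,0)]) (by decide +kernel)⟩

theorem b54 : Gd ([3,3,2,2], [3,3,2,2], [4,3,3]) :=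
  ⟨by decide, by decide, by decide, cert_Q (ls := [((1,1),(3,0),(0,3)),((0,2),(0,0),(1,0)),((2,1),(1,2),(1,2)),((0,1),(0,1),(0,2)),((3,0),(3,1),(2,2)),((3,1),(1,0),(1,1)),((1,2),(0,2),(0,0)),((2,0),(2,0),(2,1)),((0,0),(2,1),(2,0)),((1,0),(1,1),(0,1))]) (T := [(0,0,2),(0,2,1),(0,2,1),(1,1,0),(1,1,0),(1,1,0),(2,0,1),(2,3,0),(3,0,2),(3,3,2)]) (by decide +kernel)⟩

theorem b55 : Gd ([3,3,2,2], [3,3,2,2], [3,3,2,2]) :=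
  ⟨by decide, by decide, by decide, cert_Q (ls := [((1,0),(2,1),(3,0)),((1,2),(2,0),(1,2)),((2,0),(0,2),(2,1)),((2,1),(1,1),(0,2)),((0,0),(0,1),(1,1)),((3,1),(1,2),(0,0)),((0,2),(0,0),(1,0)),((3,0),(3,0),(2,0)),((0,1),(1,0),(0,1)),((1,1),(3,1),(3,1))]) (T := [(0,2,2),(0,3,1),(0,3,1),(1,0,3),(1,0,3),(1,2,2),(2,0,0),(2,1,1),(3,1,0),(3,1,0)]) (by decide +kernel)⟩

theorem b56 : Gd ([2,2,2,1,1,1], [3,3,3], [4,2,2,1]) :=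
  ⟨by decide, by decide, by decide, cert_Q (ls := [((1,1),(0,2),(2,0)),((0,1),(1,2),(0,2)),((3,0),(0,1),(1,0)),((4,0),(2,2),(1,1)),((2,1),(1,1),(0,0)),((1,0),(0,0),(0,1)),((2,0),(2,1),(2,1)),((0,0),(2,0),(3,0)),((5,0),(1,0),(0,3))]) (T := [(0,1,2),(0,1,2),(1,0,0),(1,0,0),(2,0,1),(2,2,1),(3,1,0),(4,2,3),(5,2,0)]) (by decide +kernel)⟩

theorem hB : ∀ x ∈ B, Gd x :=
  List.forall_mem_cons.2 ⟨b0, List.forall_mem_cons.2 ⟨b1, List.forall_mem_cons.2 ⟨b2, List.forall_mem_cons.2 ⟨b3, List.forall_mem_cons.2 ⟨b4, List.forall_mem_cons.2 ⟨b5, List.forall_mem_cons.2 ⟨b6, List.forall_mem_cons.2 ⟨b7, List.forall_mem_cons.2 ⟨b8, List.forall_mem_cons.2 ⟨b9, List.forall_mem_cons.2 ⟨b10, List.forall_mem_cons.2 ⟨b11, List.forall_mem_cons.2 ⟨b12, List.forall_mem_cons.2 ⟨b13, List.forall_mem_cons.2 ⟨b14,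 List.forall_mem_cons.2 ⟨b15, List.forall_mem_cons.2 ⟨b16, List.forall_mem_cons.2 ⟨b17, List.forall_mem_cons.2 ⟨b18, List.forall_mem_cons.2 ⟨b19, List.forall_mem_cons.2 ⟨b20, List.forall_mem_cons.2 ⟨b21, List.forall_mem_cons.2 ⟨b22, List.forall_mem_cons.2 ⟨b23, List.forall_mem_cons.2 ⟨b24, List.forall_mem_cons.2 ⟨b25, List.forall_mem_cons.2 ⟨b26, List.forall_mem_cons.2 ⟨b27, List.forall_mem_cons.2 ⟨b28, List.forall_mem_cons.2 ⟨b29, List.forall_mem_cons.2 ⟨b30, List.forall_mem_cons.2 ⟨b31, List.forall_mem_cons.2 ⟨b32, List.forall_mem_cons.2 ⟨b33, List.forall_mem_cons.2 ⟨b34, List.forall_mem_cons.2 ⟨b35, List.forall_mem_cons.2 ⟨b36, List.forall_mem_cons.2 ⟨b37, List.forall_mem_cons.2 ⟨b38, List.forall_mem_cons.2 ⟨b39, List.forall_mem_cons.2 ⟨b40, List.forall_mem_cons.2 ⟨b41, List.forall_mem_cons.2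 ⟨b42, List.forall_mem_cons.2 ⟨b43, List.forall_mem_cons.2 ⟨b44, List.forall_mem_cons.2 ⟨b45, List.forall_mem_cons.2 ⟨b46, List.forall_mem_cons.2 ⟨b47, List.forall_mem_cons.2 ⟨b48, List.forall_mem_cons.2 ⟨b49, List.forall_mem_cons.2 ⟨b50, List.forall_mem_cons.2 ⟨b51, List.forall_mem_cons.2 ⟨b52, List.forall_mem_cons.2 ⟨b53, List.forall_mem_cons.2 ⟨b54, List.forall_mem_cons.2 ⟨b55, List.forall_mem_cons.2 ⟨b56, List.forall_mem_nil _⟩⟩⟩⟩⟩⟩⟩⟩⟩⟩⟩⟩⟩⟩⟩⟩⟩⟩⟩⟩⟩⟩⟩⟩⟩⟩⟩⟩⟩⟩⟩⟩⟩⟩⟩⟩⟩⟩⟩⟩⟩⟩⟩⟩⟩⟩⟩⟩⟩⟩⟩⟩⟩⟩⟩⟩⟩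

end Crest.Agent.Lib.Saxl.Tb.G
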