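import Crest.Agent.Lib.Saxl.Tb.G.Table

set_option autoImplicit false
set_option Elab.async false

namespace Crest.Agent.Lib.Saxl.Tb.G

open Crest.Agent.Lib.Saxl Crest.Agent.Lib.Saxl.Tb

theorem cl_1_1 : chk (rOf RT M) TT.find LT.find N 0 (buckets 1 1 1) 0 = true := by decide +kernel
theorem cl_3_1 : chk (rOf RT M) TT.find LT.find N 46 (buckets 3 1 3) 1 = true := by decide +kernel
theorem cl_5_1 : chk (rOf RT M) TT.find LT.find N 551 (buckets 5 1 5) 3 = true := by decide +kernel
theorem cl_6_1 : chk (rOf RT M) TT.find LT.find N 554 (buckets 6 1 6) 7 = true := by decide +kernel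
theorem cl_7_1 : chk (rOf RT M) TT.find LT.find N 3163 (buckets 7 1 7) 13 = true := by decide +kernel
theorem cl_8_1 : chk (rOf RT M) TT.find LT.find N 3166 (buckets 8 1 8) 22 = true := by decide +kernel
theorem cl_10_1 : chk (rOf RT M) TT.find LT.find N 3172 (buckets 10 1 10) 34 = true := by decide +kernel
theorem cl_11_1 : chk (rOf RT M) TT.find LT.find N 3182 (buckets 11 1 11) 57 = true := by decide +kernel
theorem cl_12_1 : chk (rOf RT M) TT.find LT.find N 11234 (buckets 12 1 12) 88 = true := by decide +kernel
theorem cl_13_1 : chk (rOf RT M) TT.find LT.find N 11249 (buckets 13 1 13) 130 = true := by decide +kernel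
theorem cl_14_1 : chk (rOf RT M) TT.find LT.find N 11267 (buckets 14 1 14) 186 = true := by decide +kernel
theorem cl_15_1 : chk (rOf RT M) TT.find LT.find N 11284 (buckets 15 1 15) 259 = true := by decide +kernel
theorem cl_16_1 : chk (rOf RT M) TT.find LT.find N 28609 (buckets 16 1 16) 355 = true := by decide +kernel
theorem cl_17_1 : chk (rOf RT M) TT.find LT.find N 28644 (buckets 17 1 17) 480 = true := by decide +kernel
theorem cl_18_1 : chk (rOf RT M) TT.find LT.find N 28686 (buckets 18 1 18) 641 = true := by decide +kernel
theorem cl_19_1 : chk (rOf RT M) TT.find LT.find N 28735 (buckets 19 1 19) 848 = true := by decide +kernel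
theorem cl_20_1 : chk (rOf RT M) TT.find LT.find N 11533 (buckets 20 1 20) 1113 = true := by decide +kernel
theorem cl_21_1 : chk (rOf RT M) TT.find LT.find N 28887 (buckets 21 1 21) 1449 = true := by decide +kernel
theorem cl_22_1 : chk (rOf RT M) TT.find LT.find N 28985 (buckets 22 1 22) 1875 = true := by decide +kernel
theorem cl_23_1 : chk (rOf RT M) TT.find LT.find N 57718 (buckets 23 1 23) 2411 = true := by decide +kernel
theorem cl_24_1 : chk (rOf RT M) TT.find LT.find N 57889 (buckets 24 1 24) 3083 = true := by decide +kernel
theorem cl_25_1 : chk (rOf RT M) TT.find LT.find N 58094 (buckets 25 1 25) 3923 = true := by decide +kernel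
theorem cl_26_1 : chk (rOf RT M) TT.find LT.find N 58312 (buckets 26 1 26) 4969 = true := by decide +kernel
theorem cl_27_1 : chk (rOf RT M) TT.find LT.find N 58594 (buckets 27 1 27) 6265 = true := by decide +kernel
theorem cl_28_1 : chk (rOf RT M) TT.find LT.find N 58931 (buckets 28 1 28) 7868 = true := by decide +kernel
theorem cl_29_1 : chk (rOf RT M) TT.find LT.find N 98280 (buckets 29 1 29) 9843 = true := by decide +kernel
theorem cl_30_1 : chk (rOf RT M) TT.find LT.find N 98843 (buckets 30 1 30) 12268 = true := by decide +kernel
theorem cl_31_1 : chk (rOf RT M) TT.find LT.find N 99478 (buckets 31 1 15) 15238 = true := by decide +kernel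
theorem cl_31_16 : chk (rOf RT M) TT.find LT.find N 99478 (buckets 31 16 16) 18182 = true := by decide +kernel
theorem cl_32_1 : chk (rOf RT M) TT.find LT.find N 100201 (buckets 32 1 13) 18866 = true := by decide +kernel
theorem cl_32_14 : chk (rOf RT M) TT.find LT.find N 100201 (buckets 32 14 19) 21712 = true := by decide +kernel
theorem cl_33_1 : chk (rOf RT M) TT.find LT.find N 101030 (buckets 33 1 12) 23283 = true := by decide +kernel
theorem cl_33_13 : chk (rOf RT M) TT.find LT.find N 101030 (buckets 33 13 21) 26056 = true := by decide +kernel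
theorem cl_34_1 : chk (rOf RT M) TT.find LT.find N 102009 (buckets 34 1 11) 28650 = true := by decide +kernel
theorem cl_34_12 : chk (rOf RT M) TT.find LT.find N 102009 (buckets 34 12 5) 31068 = true := by decide +kernel
theorem cl_34_17 : chk (rOf RT M) TT.find LT.find N 102009 (buckets 34 17 18) 33942 = true := by decide +kernel
theorem cl_35_1 : chk (rOf RT M) TT.find LT.find N 64322 (buckets 35 1 11) 35153 = true := by decide +kernel
theorem cl_35_12 : chk (rOf RT M) TT.find LT.find N 64322 (buckets 35 12 3) 37869 = true := by decide +kernel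
theorem cl_35_15 : chk (rOf RT M) TT.find LT.find N 64322 (buckets 35 15 21) 40345 = true := by decide +kernel
theorem cl_36_1 : chk (rOf RT M) TT.find LT.find N 104591 (buckets 36 1 10) 43014 = true := by decide +kernel
theorem cl_36_11 : chk (rOf RT M) TT.find LT.find N 104591 (buckets 36 11 2) 44950 = true := by decide +kernel
theorem cl_36_13 : chk (rOf RT M) TT.find LT.find N 104591 (buckets 36 13 3) 47156 = true := by decide +kernel
theorem cl_36_16 : chk (rOf RT M) TT.find LT.find N 104591 (buckets 36 16 21) 49808 = true := by decide +kernel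
theorem cl_37_1 : chk (rOf RT M) TT.find LT.find N 106327 (buckets 37 1 10) 52496 = true := by decide +kernel
theorem cl_37_11 : chk (rOf RT M) TT.find LT.find N 106327 (buckets 37 11 2) 54590 = true := by decide +kernel
theorem cl_37_13 : chk (rOf RT M) TT.find LT.find N 106327 (buckets 37 13 2) 57188 = true := by decide +kernel
theorem cl_37_15 : chk (rOf RT M) TT.find LT.find N 106327 (buckets 37 15 4) 59520 = true := by decide +kernel
theorem cl_37_19 : chk (rOf RT M) TT.find LT.find N 106327 (buckets 37 19 19) 62311 = true := by decide +kernel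
theorem cl_38_1 : chk (rOf RT M) TT.find LT.find N 153076 (buckets 38 1 10) 63908 = true := by decide +kernel
theorem cl_38_11 : chk (rOf RT M) TT.find LT.find N 153076 (buckets 38 11 1) 66162 = true := by decide +kernel
theorem cl_38_12 : chk (rOf RT M) TT.find LT.find N 153076 (buckets 38 12 1) 67640 = true := by decide +kernel
theorem cl_38_13 : chk (rOf RT M) TT.find LT.find N 153076 (buckets 38 13 2) 69204 = true := by decide +kernel
theorem cl_38_15 : chk (rOf RT M) TT.find LT.find N 153076 (buckets 38 15 3) 72034 = true := by decide +kernel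
theorem cl_38_18 : chk (rOf RT M) TT.find LT.find N 153076 (buckets 38 18 21) 74903 = true := by decide +kernel
theorem cl_39_1 : chk (rOf RT M) TT.find LT.find N 155785 (buckets 39 1 10) 77610 = true := by decide +kernel
theorem cl_39_11 : chk (rOf RT M) TT.find LT.find N 155785 (buckets 39 11 1) 80022 = true := by decide +kernel
theorem cl_39_12 : chk (rOf RT M) TT.find LT.find N 155785 (buckets 39 12 1) 81725 = true := by decide +kernel
theorem cl_39_13 : chk (rOf RT M) TT.find LT.find N 155785 (buckets 39 13 1) 83563 = true := by decide +kernel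
theorem cl_39_14 : chk (rOf RT M) TT.find LT.find N 155785 (buckets 39 14 1) 85355 = true := by decide +kernel
theorem cl_39_15 : chk (rOf RT M) TT.find LT.find N 155785 (buckets 39 15 2) 86979 = true := by decide +kernel
theorem cl_39_17 : chk (rOf RT M) TT.find LT.find N 155785 (buckets 39 17 4) 89570 = true := by decide +kernel
theorem cl_39_21 : chk (rOf RT M) TT.find LT.find N 155785 (buckets 39 21 19) 92436 = true := by decide +kernel
theorem cl_40_1 : chk (rOf RT M) TT.find LT.find N 158851 (buckets 40 1 10) 94033 = true := by decide +kernel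
theorem cl_40_11 : chk (rOf RT M) TT.find LT.find N 158851 (buckets 40 11 1) 96604 = true := by decide +kernel
theorem cl_40_12 : chk (rOf RT M) TT.find LT.find N 158851 (buckets 40 12 1) 98544 = true := by decide +kernel
theorem cl_40_13 : chk (rOf RT M) TT.find LT.find N 158851 (buckets 40 13 1) 100700 = true := by decide +kernel
theorem cl_40_14 : chk (rOf RT M) TT.find LT.find N 158851 (buckets 40 14 1) 102833 = true := by decide +kernel
theorem cl_40_15 : chk (rOf RT M) TT.find LT.find N 158851 (buckets 40 15 1) 104802 = true := by decide +kernel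
theorem cl_40_16 : chk (rOf RT M) TT.find LT.find N 158851 (buckets 40 16 2) 106524 = true := by decide +kernel
theorem cl_40_18 : chk (rOf RT M) TT.find LT.find N 158851 (buckets 40 18 4) 109193 = true := by decide +kernel
theorem cl_40_22 : chk (rOf RT M) TT.find LT.find N 158851 (buckets 40 22 19) 112078 = true := by decide +kernel
theorem cl_41_1 : chk (rOf RT M) TT.find LT.find N 162453 (buckets 41 1 10) 113675 = true := by decide +kernel
theorem cl_41_11 : chk (rOf RT M) TT.find LT.find N 162453 (buckets 41 11 1) 116395 = true := by decide +kernel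

end Crest.Agent.Lib.Saxl.Tb.G
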