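import Crest.Agent.Lib.Saxl.Tb.G.Table

set_option autoImplicit false
set_option Elab.async false

namespace Crest.Agent.Lib.Saxl.Tb.G

open Crest.Agent.Lib.Saxl Crest.Agent.Lib.Saxl.Tb

theorem cl_41_12 : chk (rOf RT M) TT.find LT.find N 162453 (buckets 41 12 1) 118603 = true := by decide +kernel
theorem cl_41_13 : chk (rOf RT M) TT.find LT.find N 162453 (buckets 41 13 1) 121108 = true := by decide +kernel
theorem cl_41_14 : chk (rOf RT M) TT.find LT.find N 162453 (buckets 41 14 1) 123643 = true := by decide +kernel
theorem cl_41_15 : chk (rOf RT M) TT.find LT.find N 162453 (buckets 41 15 1) 126008 = true := by decide +kernel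
theorem cl_41_16 : chk (rOf RT M) TT.find LT.find N 162453 (buckets 41 16 1) 128110 = true := by decide +kernel
theorem cl_41_17 : chk (rOf RT M) TT.find LT.find N 162453 (buckets 41 17 2) 129904 = true := by decide +kernel
theorem cl_41_19 : chk (rOf RT M) TT.find LT.find N 162453 (buckets 41 19 4) 132628 = true := by decide +kernel
theorem cl_41_23 : chk (rOf RT M) TT.find LT.find N 162453 (buckets 41 23 19) 135525 = true := by decide +kernel
theorem cl_42_1 : chk (rOf RT M) TT.find LT.find N 166592 (buckets 42 1 10) 137122 = true := by decide +kernel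
theorem cl_42_11 : chk (rOf RT M) TT.find LT.find N 166592 (buckets 42 11 1) 139991 = true := by decide +kernel
theorem cl_42_12 : chk (rOf RT M) TT.find LT.find N 166592 (buckets 42 12 1) 142477 = true := by decide +kernel
theorem cl_42_13 : chk (rOf RT M) TT.find LT.find N 166592 (buckets 42 13 1) 145384 = true := by decide +kernel
theorem cl_42_14 : chk (rOf RT M) TT.find LT.find N 166592 (buckets 42 14 1) 148370 = true := by decide +kernel
theorem cl_42_15 : chk (rOf RT M) TT.find LT.find N 166592 (buckets 42 15 1) 151208 = true := by decide +kernel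
theorem cl_42_16 : chk (rOf RT M) TT.find LT.find N 166592 (buckets 42 16 1) 153751 = true := by decide +kernel
theorem cl_42_17 : chk (rOf RT M) TT.find LT.find N 166592 (buckets 42 17 1) 155951 = true := by decide +kernel
theorem cl_42_18 : chk (rOf RT M) TT.find LT.find N 166592 (buckets 42 18 2) 157797 = true := by decide +kernel
theorem cl_42_20 : chk (rOf RT M) TT.find LT.find N 166592 (buckets 42 20 4) 160559 = true := by decide +kernel
theorem cl_42_24 : chk (rOf RT M) TT.find LT.find N 166592 (buckets 42 24 19) 163463 = true := by decide +kernel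
theorem cl_43_1 : chk (rOf RT M) TT.find LT.find N 171143 (buckets 43 1 9) 165060 = true := by decide +kernel
theorem cl_43_10 : chk (rOf RT M) TT.find LT.find N 171143 (buckets 43 10 1) 166179 = true := by decide +kernel
theorem cl_43_11 : chk (rOf RT M) TT.find LT.find N 171143 (buckets 43 11 1) 168066 = true := by decide +kernel
theorem cl_43_12 : chk (rOf RT M) TT.find LT.find N 171143 (buckets 43 12 1) 170861 = true := by decide +kernel
theorem cl_43_13 : chk (rOf RT M) TT.find LT.find N 171143 (buckets 43 13 1) 174203 = true := by decide +kernel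
theorem cl_43_14 : chk (rOf RT M) TT.find LT.find N 171143 (buckets 43 14 1) 177717 = true := by decide +kernel
theorem cl_43_15 : chk (rOf RT M) TT.find LT.find N 171143 (buckets 43 15 1) 181094 = true := by decide +kernel
theorem cl_43_16 : chk (rOf RT M) TT.find LT.find N 171143 (buckets 43 16 1) 184167 = true := by decide +kernel
theorem cl_43_17 : chk (rOf RT M) TT.find LT.find N 171143 (buckets 43 17 1) 186843 = true := by decide +kernel
theorem cl_43_18 : chk (rOf RT M) TT.find LT.find N 171143 (buckets 43 18 1) 189115 = true := by decide +kernel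
theorem cl_43_19 : chk (rOf RT M) TT.find LT.find N 171143 (buckets 43 19 2) 190998 = true := by decide +kernel
theorem cl_43_21 : chk (rOf RT M) TT.find LT.find N 171143 (buckets 43 21 4) 193786 = true := by decide +kernel
theorem cl_43_25 : chk (rOf RT M) TT.find LT.find N 171143 (buckets 43 25 19) 196694 = true := by decide +kernel
theorem cl_44_1 : chk (rOf RT M) TT.find LT.find N 176684 (buckets 44 1 9) 198291 = true := by decide +kernel
theorem cl_44_10 : chk (rOf RT M) TT.find LT.find N 176684 (buckets 44 10 1) 199397 = true := by decide +kernel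
theorem cl_44_11 : chk (rOf RT M) TT.find LT.find N 176684 (buckets 44 11 1) 201427 = true := by decide +kernel
theorem cl_44_12 : chk (rOf RT M) TT.find LT.find N 176684 (buckets 44 12 1) 204540 = true := by decide +kernel
theorem cl_44_13 : chk (rOf RT M) TT.find LT.find N 176684 (buckets 44 13 1) 208376 = true := by decide +kernel
theorem cl_44_14 : chk (rOf RT M) TT.find LT.find N 176684 (buckets 44 14 1) 212476 = true := by decide +kernel
theorem cl_44_15 : chk (rOf RT M) TT.find LT.find N 176684 (buckets 44 15 1) 216490 = true := by decide +kernel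
theorem cl_44_16 : chk (rOf RT M) TT.find LT.find N 176684 (buckets 44 16 1) 220174 = true := by decide +kernel
theorem cl_44_17 : chk (rOf RT M) TT.find LT.find N 176684 (buckets 44 17 1) 223425 = true := by decide +kernel
theorem cl_44_18 : chk (rOf RT M) TT.find LT.find N 176684 (buckets 44 18 1) 226199 = true := by decide +kernel
theorem cl_44_19 : chk (rOf RT M) TT.find LT.find N 176684 (buckets 44 19 1) 228523 = true := by decide +kernel
theorem cl_44_20 : chk (rOf RT M) TT.find LT.find N 176684 (buckets 44 20 2) 230432 = true := by decide +kernel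
theorem cl_44_22 : chk (rOf RT M) TT.find LT.find N 176684 (buckets 44 22 4) 233237 = true := by decide +kernel
theorem cl_44_26 : chk (rOf RT M) TT.find LT.find N 176684 (buckets 44 26 19) 236147 = true := by decide +kernel

end Crest.Agent.Lib.Saxl.Tb.G
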