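import Crest.Agent.Lib.Saxl.Tb.G.Table

set_option autoImplicit false
set_option Elab.async false

namespace Crest.Agent.Lib.Saxl.Tb.G

open Crest.Agent.Lib.Saxl Crest.Agent.Lib.Saxl.Tb

theorem cl_45_1 : chk (rOf RT M) TT.find LT.find N 182927 (buckets 45 1 9) 237744 = true := by decide +kernel
theorem cl_45_10 : chk (rOf RT M) TT.find LT.find N 182927 (buckets 45 10 1) 238835 = true := by decide +kernel
theorem cl_45_11 : chk (rOf RT M) TT.find LT.find N 182927 (buckets 45 11 1) 240996 = true := by decide +kernel
theorem cl_45_12 : chk (rOf RT M) TT.find LT.find N 182927 (buckets 45 12 1) 244456 = true := by decide +kernel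
theorem cl_45_13 : chk (rOf RT M) TT.find LT.find N 182927 (buckets 45 13 1) 248824 = true := by decide +kernel
theorem cl_45_14 : chk (rOf RT M) TT.find LT.find N 182927 (buckets 45 14 1) 253601 = true := by decide +kernel
theorem cl_45_15 : chk (rOf RT M) TT.find LT.find N 182927 (buckets 45 15 1) 258336 = true := by decide +kernel
theorem cl_45_16 : chk (rOf RT M) TT.find LT.find N 182927 (buckets 45 16 1) 262749 = true := by decide +kernel
theorem cl_45_17 : chk (rOf RT M) TT.find LT.find N 182927 (buckets 45 17 1) 266669 = true := by decide +kernel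
theorem cl_45_18 : chk (rOf RT M) TT.find LT.find N 182927 (buckets 45 18 1) 270053 = true := by decide +kernel
theorem cl_45_19 : chk (rOf RT M) TT.find LT.find N 182927 (buckets 45 19 1) 272899 = true := by decide +kernel
theorem cl_45_20 : chk (rOf RT M) TT.find LT.find N 182927 (buckets 45 20 1) 275260 = true := by decide +kernel
theorem cl_45_21 : chk (rOf RT M) TT.find LT.find N 182927 (buckets 45 21 2) 277187 = true := by decide +kernel
theorem cl_45_23 : chk (rOf RT M) TT.find LT.find N 182927 (buckets 45 23 4) 280003 = true := by decide +kernel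
theorem cl_45_27 : chk (rOf RT M) TT.find LT.find N 182927 (buckets 45 27 19) 282914 = true := by decide +kernel

end Crest.Agent.Lib.Saxl.Tb.G
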