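import Crest.Agent.Lib.Saxl.Tb.G.Table

set_option autoImplicit false
set_option Elab.async false

namespace Crest.Agent.Lib.Saxl.Tb.G

open Crest.Agent.Lib.Saxl Crest.Agent.Lib.Saxl.Tb

theorem cr_0 : regRange RT M 0 2000 = true := by decide +kernel
theorem cr_2000 : regRange RT M 2000 2000 = true := by decide +kernel
theorem cr_4000 : regRange RT M 4000 2000 = true := by decide +kernel
theorem cr_6000 : regRange RT M 6000 2000 = true := by decide +kernel
theorem cr_8000 : regRange RT M 8000 2000 = true := by decide +kernel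
theorem cr_10000 : regRange RT M 10000 2000 = true := by decide +kernel
theorem cr_12000 : regRange RT M 12000 2000 = true := by decide +kernel
theorem cr_14000 : regRange RT M 14000 2000 = true := by decide +kernel
theorem cr_16000 : regRange RT M 16000 2000 = true := by decide +kernel
theorem cr_18000 : regRange RT M 18000 2000 = true := by decide +kernel
theorem cr_20000 : regRange RT M 20000 2000 = true := by decide +kernel
theorem cr_22000 : regRange RT M 22000 2000 = true := by decide +kernel
theorem cr_24000 : regRange RT M 24000 2000 = true := by decide +kernel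
theorem cr_26000 : regRange RT M 26000 2000 = true := by decide +kernel
theorem cr_28000 : regRange RT M 28000 2000 = true := by decide +kernel
theorem cr_30000 : regRange RT M 30000 2000 = true := by decide +kernel
theorem cr_32000 : regRange RT M 32000 2000 = true := by decide +kernel
theorem cr_34000 : regRange RT M 34000 2000 = true := by decide +kernel
theorem cr_36000 : regRange RT M 36000 2000 = true := by decide +kernel
theorem cr_38000 : regRange RT M 38000 2000 = true := by decide +kernel
theorem cr_40000 : regRange RT M 40000 2000 = true := by decide +kernel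
theorem cr_42000 : regRange RT M 42000 2000 = true := by decide +kernel
theorem cr_44000 : regRange RT M 44000 2000 = true := by decide +kernel
theorem cr_46000 : regRange RT M 46000 2000 = true := by decide +kernel
theorem cr_48000 : regRange RT M 48000 2000 = true := by decide +kernel
theorem cr_50000 : regRange RT M 50000 2000 = true := by decide +kernel
theorem cr_52000 : regRange RT M 52000 2000 = true := by decide +kernel
theorem cr_54000 : regRange RT M 54000 2000 = true := by decide +kernel
theorem cr_56000 : regRange RT M 56000 2000 = true := by decide +kernel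
theorem cr_58000 : regRange RT M 58000 2000 = true := by decide +kernel
theorem cr_60000 : regRange RT M 60000 2000 = true := by decide +kernel
theorem cr_62000 : regRange RT M 62000 2000 = true := by decide +kernel
theorem cr_64000 : regRange RT M 64000 2000 = true := by decide +kernel
theorem cr_66000 : regRange RT M 66000 2000 = true := by decide +kernel
theorem cr_68000 : regRange RT M 68000 2000 = true := by decide +kernel
theorem cr_70000 : regRange RT M 70000 2000 = true := by decide +kernel
theorem cr_72000 : regRange RT M 72000 2000 = true := by decide +kernel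
theorem cr_74000 : regRange RT M 74000 2000 = true := by decide +kernel
theorem cr_76000 : regRange RT M 76000 2000 = true := by decide +kernel
theorem cr_78000 : regRange RT M 78000 2000 = true := by decide +kernel

theorem crs_0 : ∀ i, 0 ≤ i → i < 80000 → regOK (rOf RT M) (cjOf RT M) i = true :=
  range_glue (range_glue (range_glue (range_glue (range_glue ((regRange_spec cr_0 : ∀ i, 0 ≤ i → i < 2000 → regOK (rOf RT M) (cjOf RT M) i = true)) ((regRange_spec cr_2000 : ∀ i, 2000 ≤ i → i < 4000 → regOK (rOf RT M) (cjOf RT M) i = true))) (range_glue ((regRange_spec cr_4000 : ∀ i, 4000 ≤ i → i < 6000 → regOK (rOf RT M) (cjOf RT M) i = true)) (range_glue ((regRange_spec cr_6000 : ∀ i, 6000 ≤ i → i < 8000 → regOK (rOf RT M) (cjOf RT M) i = true)) ((regRange_spec cr_8000 : ∀ i, 8000 ≤ i → i < 10000 → regOK (rOf RT M) (cjOf RT M) i = true))))) (range_glue (range_glue ((regRange_spec cr_10000 : ∀ i, 10000 ≤ i → i < 12000 → regOK (rOf RT M) (cjOf RT M) i = true)) ((regRange_spec cr_12000 : ∀ i, 12000 ≤ i → i < 14000 → regOK (rOf RT M) (cjOf RT M)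 i = true))) (range_glue ((regRange_spec cr_14000 : ∀ i, 14000 ≤ i → i < 16000 → regOK (rOf RT M) (cjOf RT M) i = true)) (range_glue ((regRange_spec cr_16000 : ∀ i, 16000 ≤ i → i < 18000 → regOK (rOf RT M) (cjOf RT M) i = true)) ((regRange_spec cr_18000 : ∀ i, 18000 ≤ i → i < 20000 → regOK (rOf RT M) (cjOf RT M) i = true)))))) (range_glue (range_glue (range_glue ((regRange_spec cr_20000 : ∀ i, 20000 ≤ i → i < 22000 → regOK (rOf RT M) (cjOf RT M) i = true)) ((regRange_spec cr_22000 : ∀ i, 22000 ≤ i → i < 24000 → regOK (rOf RT M) (cjOf RT M) i = true))) (range_glue ((regRange_spec cr_24000 : ∀ i, 24000 ≤ i → i < 26000 → regOK (rOf RT M) (cjOf RT M) i = true)) (range_glue ((regRange_spec cr_26000 : ∀ i, 26000 ≤ i → i < 28000 → regOK (rOf RT M) (cjOf RT M) i = true)) ((regRange_spec cr_28000 : ∀ i, 28000 ≤ i → i < 30000 → regOK (rOf RT M) (cjOf RT M) i = true))))) (range_glue (range_glue ((regRange_spec cr_30000 : ∀ i, 30000 ≤ i → i < 32000 → regOK (rOf RT M) (cjOf RT M) i = true)) ((regRange_spec cr_32000 : ∀ i, 32000 ≤ i → i < 34000 → regOK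 (rOf RT M) (cjOf RT M) i = true))) (range_glue ((regRange_spec cr_34000 : ∀ i, 34000 ≤ i → i < 36000 → regOK (rOf RT M) (cjOf RT M) i = true)) (range_glue ((regRange_spec cr_36000 : ∀ i, 36000 ≤ i → i < 38000 → regOK (rOf RT M) (cjOf RT M) i = true)) ((regRange_spec cr_38000 : ∀ i, 38000 ≤ i → i < 40000 → regOK (rOf RT M) (cjOf RT M) i = true))))))) (range_glue (range_glue (range_glue (range_glue ((regRange_spec cr_40000 : ∀ i, 40000 ≤ i → i < 42000 → regOK (rOf RT M) (cjOf RT M) i = true)) ((regRange_spec cr_42000 : ∀ i, 42000 ≤ i → i < 44000 → regOK (rOf RT M) (cjOf RT M) i = true))) (range_glue ((regRange_spec cr_44000 : ∀ i, 44000 ≤ i → i < 46000 → regOK (rOf RT M) (cjOf RT M) i = true)) (range_glue ((regRange_spec cr_46000 : ∀ i, 46000 ≤ i → i < 48000 → regOK (rOf RT M) (cjOf RT M) i = true)) ((regRange_spec cr_48000 : ∀ i, 48000 ≤ i → i < 50000 → regOK (rOf RT M) (cjOf RT M) i = true))))) (range_glue (range_glue ((regRange_spec cr_50000 : ∀ i, 50000 ≤ i → i < 52000 → regOK (rOf RT M) (cjOf RT M) i = true)) ((regRange_spec cr_52000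 : ∀ i, 52000 ≤ i → i < 54000 → regOK (rOf RT M) (cjOf RT M) i = true))) (range_glue ((regRange_spec cr_54000 : ∀ i, 54000 ≤ i → i < 56000 → regOK (rOf RT M) (cjOf RT M) i = true)) (range_glue ((regRange_spec cr_56000 : ∀ i, 56000 ≤ i → i < 58000 → regOK (rOf RT M) (cjOf RT M) i = true)) ((regRange_spec cr_58000 : ∀ i, 58000 ≤ i → i < 60000 → regOK (rOf RT M) (cjOf RT M) i = true)))))) (range_glue (range_glue (range_glue ((regRange_spec cr_60000 : ∀ i, 60000 ≤ i → i < 62000 → regOK (rOf RT M) (cjOf RT M) i = true)) ((regRange_spec cr_62000 : ∀ i, 62000 ≤ i → i < 64000 → regOK (rOf RT M) (cjOf RT M) i = true))) (range_glue ((regRange_spec cr_64000 : ∀ i, 64000 ≤ i → i < 66000 → regOK (rOf RT M) (cjOf RT M) i = true)) (range_glue ((regRange_spec cr_66000 : ∀ i, 66000 ≤ i → i < 68000 → regOK (rOf RT M) (cjOf RT M) i = true)) ((regRange_spec cr_68000 : ∀ i, 68000 ≤ i → i < 70000 → regOK (rOf RT M) (cjOf RT M) i = true))))) (range_glue (range_glue ((regRange_spec cr_70000 : ∀ i, 70000 ≤ i → i < 72000 → regOK (rOf RT M) (cjOf RT M) i = true))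 ((regRange_spec cr_72000 : ∀ i, 72000 ≤ i → i < 74000 → regOK (rOf RT M) (cjOf RT M) i = true))) (range_glue ((regRange_spec cr_74000 : ∀ i, 74000 ≤ i → i < 76000 → regOK (rOf RT M) (cjOf RT M) i = true)) (range_glue ((regRange_spec cr_76000 : ∀ i, 76000 ≤ i → i < 78000 → regOK (rOf RT M) (cjOf RT M) i = true)) ((regRange_spec cr_78000 : ∀ i, 78000 ≤ i → i < 80000 → regOK (rOf RT M) (cjOf RT M) i = true)))))))

end Crest.Agent.Lib.Saxl.Tb.G
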