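import Crest.Agent.Lib.Saxl.Tb.G.Table

set_option autoImplicit false
set_option Elab.async false

namespace Crest.Agent.Lib.Saxl.Tb.G

open Crest.Agent.Lib.Saxl Crest.Agent.Lib.Saxl.Tb

theorem cr_80000 : regRange RT M 80000 2000 = true := by decide +kernel
theorem cr_82000 : regRange RT M 82000 2000 = true := by decide +kernel
theorem cr_84000 : regRange RT M 84000 2000 = true := by decide +kernel
theorem cr_86000 : regRange RT M 86000 2000 = true := by decide +kernel
theorem cr_88000 : regRange RT M 88000 2000 = true := by decide +kernel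
theorem cr_90000 : regRange RT M 90000 2000 = true := by decide +kernel
theorem cr_92000 : regRange RT M 92000 2000 = true := by decide +kernel
theorem cr_94000 : regRange RT M 94000 2000 = true := by decide +kernel
theorem cr_96000 : regRange RT M 96000 2000 = true := by decide +kernel
theorem cr_98000 : regRange RT M 98000 2000 = true := by decide +kernel
theorem cr_100000 : regRange RT M 100000 2000 = true := by decide +kernel
theorem cr_102000 : regRange RT M 102000 2000 = true := by decide +kernel
theorem cr_104000 : regRange RT M 104000 2000 = true := by decide +kernel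
theorem cr_106000 : regRange RT M 106000 2000 = true := by decide +kernel
theorem cr_108000 : regRange RT M 108000 2000 = true := by decide +kernel
theorem cr_110000 : regRange RT M 110000 2000 = true := by decide +kernel
theorem cr_112000 : regRange RT M 112000 2000 = true := by decide +kernel
theorem cr_114000 : regRange RT M 114000 2000 = true := by decide +kernel
theorem cr_116000 : regRange RT M 116000 2000 = true := by decide +kernel
theorem cr_118000 : regRange RT M 118000 2000 = true := by decide +kernel
theorem cr_120000 : regRange RT M 120000 2000 = true := by decide +kernel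
theorem cr_122000 : regRange RT M 122000 2000 = true := by decide +kernel
theorem cr_124000 : regRange RT M 124000 2000 = true := by decide +kernel
theorem cr_126000 : regRange RT M 126000 2000 = true := by decide +kernel
theorem cr_128000 : regRange RT M 128000 2000 = true := by decide +kernel
theorem cr_130000 : regRange RT M 130000 2000 = true := by decide +kernel
theorem cr_132000 : regRange RT M 132000 2000 = true := by decide +kernel
theorem cr_134000 : regRange RT M 134000 2000 = true := by decide +kernel
theorem cr_136000 : regRange RT M 136000 2000 = true := by decide +kernel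
theorem cr_138000 : regRange RT M 138000 2000 = true := by decide +kernel
theorem cr_140000 : regRange RT M 140000 2000 = true := by decide +kernel
theorem cr_142000 : regRange RT M 142000 2000 = true := by decide +kernel
theorem cr_144000 : regRange RT M 144000 2000 = true := by decide +kernel
theorem cr_146000 : regRange RT M 146000 2000 = true := by decide +kernel
theorem cr_148000 : regRange RT M 148000 2000 = true := by decide +kernel
theorem cr_150000 : regRange RT M 150000 2000 = true := by decide +kernel
theorem cr_152000 : regRange RT M 152000 2000 = true := by decide +kernel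
theorem cr_154000 : regRange RT M 154000 2000 = true := by decide +kernel
theorem cr_156000 : regRange RT M 156000 2000 = true := by decide +kernel
theorem cr_158000 : regRange RT M 158000 2000 = true := by decide +kernel

theorem crs_1 : ∀ i, 80000 ≤ i → i < 160000 → regOK (rOf RT M) (cjOf RT M) i = true :=
  range_glue (range_glue (range_glue (range_glue (range_glue ((regRange_spec cr_80000 : ∀ i, 80000 ≤ i → i < 82000 → regOK (rOf RT M) (cjOf RT M) i = true)) ((regRange_spec cr_82000 : ∀ i, 82000 ≤ i → i < 84000 → regOK (rOf RT M) (cjOf RT M) i = true))) (range_glue ((regRange_spec cr_84000 : ∀ i, 84000 ≤ i → i < 86000 → regOK (rOf RT M) (cjOf RT M) i = true)) (range_glue ((regRange_spec cr_86000 : ∀ i, 86000 ≤ i → i < 88000 → regOK (rOf RT M) (cjOf RT M) i = true)) ((regRange_spec cr_88000 : ∀ i, 88000 ≤ i → i < 90000 → regOK (rOf RT M) (cjOf RT M) i = true))))) (range_glue (range_glue ((regRange_spec cr_90000 : ∀ i, 90000 ≤ i → i < 92000 → regOK (rOf RT M) (cjOf RT M) i = true)) ((regRange_spec cr_92000 : ∀ i, 92000 ≤ i → i < 94000 → regOK (rOf RT M) (cjOf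 RT M) i = true))) (range_glue ((regRange_spec cr_94000 : ∀ i, 94000 ≤ i → i < 96000 → regOK (rOf RT M) (cjOf RT M) i = true)) (range_glue ((regRange_spec cr_96000 : ∀ i, 96000 ≤ i → i < 98000 → regOK (rOf RT M) (cjOf RT M) i = true)) ((regRange_spec cr_98000 : ∀ i, 98000 ≤ i → i < 100000 → regOK (rOf RT M) (cjOf RT M) i = true)))))) (range_glue (range_glue (range_glue ((regRange_spec cr_100000 : ∀ i, 100000 ≤ i → i < 102000 → regOK (rOf RT M) (cjOf RT M) i = true)) ((regRange_spec cr_102000 : ∀ i, 102000 ≤ i → i < 104000 → regOK (rOf RT M) (cjOf RT M) i = true))) (range_glue ((regRange_spec cr_104000 : ∀ i, 104000 ≤ i → i < 106000 → regOK (rOf RT M) (cjOf RT M) i = true)) (range_glue ((regRange_spec cr_106000 : ∀ i, 106000 ≤ i → i < 108000 → regOK (rOf RT M) (cjOf RT M) i = true)) ((regRange_spec cr_108000 : ∀ i, 108000 ≤ i → i < 110000 → regOK (rOf RT M) (cjOf RT M) i = true))))) (range_glue (range_glue ((regRange_spec cr_110000 : ∀ i, 110000 ≤ i → i < 112000 → regOK (rOf RT M) (cjOf RT M) i = true)) ((regRange_spec cr_112000 : ∀ i, 112000 ≤ i → i < 114000 → regOK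 (rOf RT M) (cjOf RT M) i = true))) (range_glue ((regRange_spec cr_114000 : ∀ i, 114000 ≤ i → i < 116000 → regOK (rOf RT M) (cjOf RT M) i = true)) (range_glue ((regRange_spec cr_116000 : ∀ i, 116000 ≤ i → i < 118000 → regOK (rOf RT M) (cjOf RT M) i = true)) ((regRange_spec cr_118000 : ∀ i, 118000 ≤ i → i < 120000 → regOK (rOf RT M) (cjOf RT M) i = true))))))) (range_glue (range_glue (range_glue (range_glue ((regRange_spec cr_120000 : ∀ i, 120000 ≤ i → i < 122000 → regOK (rOf RT M) (cjOf RT M) i = true)) ((regRange_spec cr_122000 : ∀ i, 122000 ≤ i → i < 124000 → regOK (rOf RT M) (cjOf RT M) i = true))) (range_glue ((regRange_spec cr_124000 : ∀ i, 124000 ≤ i → i < 126000 → regOK (rOf RT M) (cjOf RT M) i = true)) (range_glue ((regRange_spec cr_126000 : ∀ i, 126000 ≤ i → i < 128000 → regOK (rOf RT M) (cjOf RT M) i = true)) ((regRange_spec cr_128000 : ∀ i, 128000 ≤ i → i < 130000 → regOK (rOf RT M) (cjOf RT M) i = true))))) (range_glue (range_glue ((regRange_spec cr_130000 : ∀ i, 130000 ≤ i → i < 132000 → regOK (rOf RT M) (cjOf RT M) i = true)) ((regRange_spec cr_132000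 : ∀ i, 132000 ≤ i → i < 134000 → regOK (rOf RT M) (cjOf RT M) i = true))) (range_glue ((regRange_spec cr_134000 : ∀ i, 134000 ≤ i → i < 136000 → regOK (rOf RT M) (cjOf RT M) i = true)) (range_glue ((regRange_spec cr_136000 : ∀ i, 136000 ≤ i → i < 138000 → regOK (rOf RT M) (cjOf RT M) i = true)) ((regRange_spec cr_138000 : ∀ i, 138000 ≤ i → i < 140000 → regOK (rOf RT M) (cjOf RT M) i = true)))))) (range_glue (range_glue (range_glue ((regRange_spec cr_140000 : ∀ i, 140000 ≤ i → i < 142000 → regOK (rOf RT M) (cjOf RT M) i = true)) ((regRange_spec cr_142000 : ∀ i, 142000 ≤ i → i < 144000 → regOK (rOf RT M) (cjOf RT M) i = true))) (range_glue ((regRange_spec cr_144000 : ∀ i, 144000 ≤ i → i < 146000 → regOK (rOf RT M) (cjOf RT M) i = true)) (range_glue ((regRange_spec cr_146000 : ∀ i, 146000 ≤ i → i < 148000 → regOK (rOf RT M) (cjOf RT M) i = true)) ((regRange_spec cr_148000 : ∀ i, 148000 ≤ i → i < 150000 → regOK (rOf RT M) (cjOf RT M) i = true))))) (range_glue (range_glue ((regRange_spec cr_150000 : ∀ i, 150000 ≤ i → i < 152000 → regOK (rOf RT M) (cjOf RT M) i = true))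 ((regRange_spec cr_152000 : ∀ i, 152000 ≤ i → i < 154000 → regOK (rOf RT M) (cjOf RT M) i = true))) (range_glue ((regRange_spec cr_154000 : ∀ i, 154000 ≤ i → i < 156000 → regOK (rOf RT M) (cjOf RT M) i = true)) (range_glue ((regRange_spec cr_156000 : ∀ i, 156000 ≤ i → i < 158000 → regOK (rOf RT M) (cjOf RT M) i = true)) ((regRange_spec cr_158000 : ∀ i, 158000 ≤ i → i < 160000 → regOK (rOf RT M) (cjOf RT M) i = true)))))))

end Crest.Agent.Lib.Saxl.Tb.G
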