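import Crest.Agent.Lib.Saxl.Tb.G.Table

set_option autoImplicit false
set_option Elab.async false

namespace Crest.Agent.Lib.Saxl.Tb.G

open Crest.Agent.Lib.Saxl Crest.Agent.Lib.Saxl.Tb

theorem cr_160000 : regRange RT M 160000 2000 = true := by decide +kernel
theorem cr_162000 : regRange RT M 162000 2000 = true := by decide +kernel
theorem cr_164000 : regRange RT M 164000 2000 = true := by decide +kernel
theorem cr_166000 : regRange RT M 166000 2000 = true := by decide +kernel
theorem cr_168000 : regRange RT M 168000 2000 = true := by decide +kernel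
theorem cr_170000 : regRange RT M 170000 2000 = true := by decide +kernel
theorem cr_172000 : regRange RT M 172000 2000 = true := by decide +kernel
theorem cr_174000 : regRange RT M 174000 2000 = true := by decide +kernel
theorem cr_176000 : regRange RT M 176000 2000 = true := by decide +kernel
theorem cr_178000 : regRange RT M 178000 2000 = true := by decide +kernel
theorem cr_180000 : regRange RT M 180000 2000 = true := by decide +kernel
theorem cr_182000 : regRange RT M 182000 2000 = true := by decide +kernel
theorem cr_184000 : regRange RT M 184000 2000 = true := by decide +kernel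
theorem cr_186000 : regRange RT M 186000 2000 = true := by decide +kernel
theorem cr_188000 : regRange RT M 188000 2000 = true := by decide +kernel
theorem cr_190000 : regRange RT M 190000 2000 = true := by decide +kernel
theorem cr_192000 : regRange RT M 192000 2000 = true := by decide +kernel
theorem cr_194000 : regRange RT M 194000 2000 = true := by decide +kernel
theorem cr_196000 : regRange RT M 196000 2000 = true := by decide +kernel
theorem cr_198000 : regRange RT M 198000 2000 = true := by decide +kernel
theorem cr_200000 : regRange RT M 200000 2000 = true := by decide +kernel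
theorem cr_202000 : regRange RT M 202000 2000 = true := by decide +kernel
theorem cr_204000 : regRange RT M 204000 2000 = true := by decide +kernel
theorem cr_206000 : regRange RT M 206000 2000 = true := by decide +kernel
theorem cr_208000 : regRange RT M 208000 2000 = true := by decide +kernel
theorem cr_210000 : regRange RT M 210000 2000 = true := by decide +kernel
theorem cr_212000 : regRange RT M 212000 2000 = true := by decide +kernel
theorem cr_214000 : regRange RT M 214000 2000 = true := by decide +kernel
theorem cr_216000 : regRange RT M 216000 2000 = true := by decide +kernel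
theorem cr_218000 : regRange RT M 218000 2000 = true := by decide +kernel
theorem cr_220000 : regRange RT M 220000 2000 = true := by decide +kernel
theorem cr_222000 : regRange RT M 222000 2000 = true := by decide +kernel
theorem cr_224000 : regRange RT M 224000 2000 = true := by decide +kernel
theorem cr_226000 : regRange RT M 226000 2000 = true := by decide +kernel
theorem cr_228000 : regRange RT M 228000 2000 = true := by decide +kernel
theorem cr_230000 : regRange RT M 230000 2000 = true := by decide +kernel
theorem cr_232000 : regRange RT M 232000 2000 = true := by decide +kernel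
theorem cr_234000 : regRange RT M 234000 2000 = true := by decide +kernel
theorem cr_236000 : regRange RT M 236000 2000 = true := by decide +kernel
theorem cr_238000 : regRange RT M 238000 2000 = true := by decide +kernel

theorem crs_2 : ∀ i, 160000 ≤ i → i < 240000 → regOK (rOf RT M) (cjOf RT M) i = true :=
  range_glue (range_glue (range_glue (range_glue (range_glue ((regRange_spec cr_160000 : ∀ i, 160000 ≤ i → i < 162000 → regOK (rOf RT M) (cjOf RT M) i = true)) ((regRange_spec cr_162000 : ∀ i, 162000 ≤ i → i < 164000 → regOK (rOf RT M) (cjOf RT M) i = true))) (range_glue ((regRange_spec cr_164000 : ∀ i, 164000 ≤ i → i < 166000 → regOK (rOf RT M) (cjOf RT M) i = true)) (range_glue ((regRange_spec cr_166000 : ∀ i, 166000 ≤ i → i < 168000 → regOK (rOf RT M) (cjOf RT M) i = true)) ((regRange_spec cr_168000 : ∀ i, 168000 ≤ i → i < 170000 → regOK (rOf RT M) (cjOf RT M) i = true))))) (range_glue (range_glue ((regRange_spec cr_170000 : ∀ i, 170000 ≤ i → i < 172000 → regOK (rOf RT M) (cjOf RT M) i = true)) ((regRange_spec cr_172000 : ∀ i, 172000 ≤ i → i < 174000 → regOK (rOf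 RT M) (cjOf RT M) i = true))) (range_glue ((regRange_spec cr_174000 : ∀ i, 174000 ≤ i → i < 176000 → regOK (rOf RT M) (cjOf RT M) i = true)) (range_glue ((regRange_spec cr_176000 : ∀ i, 176000 ≤ i → i < 178000 → regOK (rOf RT M) (cjOf RT M) i = true)) ((regRange_spec cr_178000 : ∀ i, 178000 ≤ i → i < 180000 → regOK (rOf RT M) (cjOf RT M) i = true)))))) (range_glue (range_glue (range_glue ((regRange_spec cr_180000 : ∀ i, 180000 ≤ i → i < 182000 → regOK (rOf RT M) (cjOf RT M) i = true)) ((regRange_spec cr_182000 : ∀ i, 182000 ≤ i → i < 184000 → regOK (rOf RT M) (cjOf RT M) i = true))) (range_glue ((regRange_spec cr_184000 : ∀ i, 184000 ≤ i → i < 186000 → regOK (rOf RT M) (cjOf RT M) i = true)) (range_glue ((regRange_spec cr_186000 : ∀ i, 186000 ≤ i → i < 188000 → regOK (rOf RT M) (cjOf RT M) i = true)) ((regRange_spec cr_188000 : ∀ i, 188000 ≤ i → i < 190000 → regOK (rOf RT M) (cjOf RT M) i = true))))) (range_glue (range_glue ((regRange_spec cr_190000 : ∀ i, 190000 ≤ i → i < 192000 → regOK (rOf RT M) (cjOf RT M) i = true)) ((regRange_spec cr_192000 : ∀ i, 192000 ≤ i → i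 < 194000 → regOK (rOf RT M) (cjOf RT M) i = true))) (range_glue ((regRange_spec cr_194000 : ∀ i, 194000 ≤ i → i < 196000 → regOK (rOf RT M) (cjOf RT M) i = true)) (range_glue ((regRange_spec cr_196000 : ∀ i, 196000 ≤ i → i < 198000 → regOK (rOf RT M) (cjOf RT M) i = true)) ((regRange_spec cr_198000 : ∀ i, 198000 ≤ i → i < 200000 → regOK (rOf RT M) (cjOf RT M) i = true))))))) (range_glue (range_glue (range_glue (range_glue ((regRange_spec cr_200000 : ∀ i, 200000 ≤ i → i < 202000 → regOK (rOf RT M) (cjOf RT M) i = true)) ((regRange_spec cr_202000 : ∀ i, 202000 ≤ i → i < 204000 → regOK (rOf RT M) (cjOf RT M) i = true))) (range_glue ((regRange_spec cr_204000 : ∀ i, 204000 ≤ i → i < 206000 → regOK (rOf RT M) (cjOf RT M) i = true)) (range_glue ((regRange_spec cr_206000 : ∀ i, 206000 ≤ i → i < 208000 → regOK (rOf RT M) (cjOf RT M) i = true)) ((regRange_spec cr_208000 : ∀ i, 208000 ≤ i → i < 210000 → regOK (rOf RT M) (cjOf RT M) i = true))))) (range_glue (range_glue ((regRange_spec cr_210000 : ∀ i, 210000 ≤ i → i < 212000 → regOK (rOf RT M) (cjOf RT M) i = true)) ((regRange_spec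 cr_212000 : ∀ i, 212000 ≤ i → i < 214000 → regOK (rOf RT M) (cjOf RT M) i = true))) (range_glue ((regRange_spec cr_214000 : ∀ i, 214000 ≤ i → i < 216000 → regOK (rOf RT M) (cjOf RT M) i = true)) (range_glue ((regRange_spec cr_216000 : ∀ i, 216000 ≤ i → i < 218000 → regOK (rOf RT M) (cjOf RT M) i = true)) ((regRange_spec cr_218000 : ∀ i, 218000 ≤ i → i < 220000 → regOK (rOf RT M) (cjOf RT M) i = true)))))) (range_glue (range_glue (range_glue ((regRange_spec cr_220000 : ∀ i, 220000 ≤ i → i < 222000 → regOK (rOf RT M) (cjOf RT M) i = true)) ((regRange_spec cr_222000 : ∀ i, 222000 ≤ i → i < 224000 → regOK (rOf RT M) (cjOf RT M) i = true))) (range_glue ((regRange_spec cr_224000 : ∀ i, 224000 ≤ i → i < 226000 → regOK (rOf RT M) (cjOf RT M) i = true)) (range_glue ((regRange_spec cr_226000 : ∀ i, 226000 ≤ i → i < 228000 → regOK (rOf RT M) (cjOf RT M) i = true)) ((regRange_spec cr_228000 : ∀ i, 228000 ≤ i → i < 230000 → regOK (rOf RT M) (cjOf RT M) i = true))))) (range_glue (range_glue ((regRange_spec cr_230000 : ∀ i, 230000 ≤ i → i < 232000 → regOK (rOf RT M) (cjOf RT M) i =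 true)) ((regRange_spec cr_232000 : ∀ i, 232000 ≤ i → i < 234000 → regOK (rOf RT M) (cjOf RT M) i = true))) (range_glue ((regRange_spec cr_234000 : ∀ i, 234000 ≤ i → i < 236000 → regOK (rOf RT M) (cjOf RT M) i = true)) (range_glue ((regRange_spec cr_236000 : ∀ i, 236000 ≤ i → i < 238000 → regOK (rOf RT M) (cjOf RT M) i = true)) ((regRange_spec cr_238000 : ∀ i, 238000 ≤ i → i < 240000 → regOK (rOf RT M) (cjOf RT M) i = true)))))))

end Crest.Agent.Lib.Saxl.Tb.G
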