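import Crest.Agent.Lib.Saxl.Tb.G.Table

set_option autoImplicit false
set_option Elab.async false

namespace Crest.Agent.Lib.Saxl.Tb.G

open Crest.Agent.Lib.Saxl Crest.Agent.Lib.Saxl.Tb

theorem cr_240000 : regRange RT M 240000 2000 = true := by decide +kernel
theorem cr_242000 : regRange RT M 242000 2000 = true := by decide +kernel
theorem cr_244000 : regRange RT M 244000 2000 = true := by decide +kernel
theorem cr_246000 : regRange RT M 246000 2000 = true := by decide +kernel
theorem cr_248000 : regRange RT M 248000 2000 = true := by decide +kernel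
theorem cr_250000 : regRange RT M 250000 2000 = true := by decide +kernel
theorem cr_252000 : regRange RT M 252000 2000 = true := by decide +kernel
theorem cr_254000 : regRange RT M 254000 2000 = true := by decide +kernel
theorem cr_256000 : regRange RT M 256000 2000 = true := by decide +kernel
theorem cr_258000 : regRange RT M 258000 2000 = true := by decide +kernel
theorem cr_260000 : regRange RT M 260000 2000 = true := by decide +kernel
theorem cr_262000 : regRange RT M 262000 2000 = true := by decide +kernel
theorem cr_264000 : regRange RT M 264000 2000 = true := by decide +kernel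
theorem cr_266000 : regRange RT M 266000 2000 = true := by decide +kernel
theorem cr_268000 : regRange RT M 268000 2000 = true := by decide +kernel
theorem cr_270000 : regRange RT M 270000 2000 = true := by decide +kernel
theorem cr_272000 : regRange RT M 272000 2000 = true := by decide +kernel
theorem cr_274000 : regRange RT M 274000 2000 = true := by decide +kernel
theorem cr_276000 : regRange RT M 276000 2000 = true := by decide +kernel
theorem cr_278000 : regRange RT M 278000 2000 = true := by decide +kernel
theorem cr_280000 : regRange RT M 280000 2000 = true := by decide +kernel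
theorem cr_282000 : regRange RT M 282000 2000 = true := by decide +kernel
theorem cr_284000 : regRange RT M 284000 2000 = true := by decide +kernel
theorem cr_286000 : regRange RT M 286000 2000 = true := by decide +kernel
theorem cr_288000 : regRange RT M 288000 2000 = true := by decide +kernel
theorem cr_290000 : regRange RT M 290000 2000 = true := by decide +kernel
theorem cr_292000 : regRange RT M 292000 2000 = true := by decide +kernel
theorem cr_294000 : regRange RT M 294000 2000 = true := by decide +kernel
theorem cr_296000 : regRange RT M 296000 2000 = true := by decide +kernel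
theorem cr_298000 : regRange RT M 298000 2000 = true := by decide +kernel
theorem cr_300000 : regRange RT M 300000 2000 = true := by decide +kernel
theorem cr_302000 : regRange RT M 302000 2000 = true := by decide +kernel
theorem cr_304000 : regRange RT M 304000 2000 = true := by decide +kernel
theorem cr_306000 : regRange RT M 306000 2000 = true := by decide +kernel
theorem cr_308000 : regRange RT M 308000 2000 = true := by decide +kernel
theorem cr_310000 : regRange RT M 310000 2000 = true := by decide +kernel
theorem cr_312000 : regRange RT M 312000 2000 = true := by decide +kernel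
theorem cr_314000 : regRange RT M 314000 2000 = true := by decide +kernel
theorem cr_316000 : regRange RT M 316000 2000 = true := by decide +kernel
theorem cr_318000 : regRange RT M 318000 2000 = true := by decide +kernel

theorem crs_3 : ∀ i, 240000 ≤ i → i < 320000 → regOK (rOf RT M) (cjOf RT M) i = true :=
  range_glue (range_glue (range_glue (range_glue (range_glue ((regRange_spec cr_240000 : ∀ i, 240000 ≤ i → i < 242000 → regOK (rOf RT M) (cjOf RT M) i = true)) ((regRange_spec cr_242000 : ∀ i, 242000 ≤ i → i < 244000 → regOK (rOf RT M) (cjOf RT M) i = true))) (range_glue ((regRange_spec cr_244000 : ∀ i, 244000 ≤ i → i < 246000 → regOK (rOf RT M) (cjOf RT M) i = true)) (range_glue ((regRange_spec cr_246000 : ∀ i, 246000 ≤ i → i < 248000 → regOK (rOf RT M) (cjOf RT M) i = true)) ((regRange_spec cr_248000 : ∀ i, 248000 ≤ i → i < 250000 → regOK (rOf RT M) (cjOf RT M) i = true))))) (range_glue (range_glue ((regRange_spec cr_250000 : ∀ i, 250000 ≤ i → i < 252000 → regOK (rOf RT M) (cjOf RT M) i = true)) ((regRange_spec cr_252000 : ∀ i, 252000 ≤ i → i < 254000 → regOK (rOf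 RT M) (cjOf RT M) i = true))) (range_glue ((regRange_spec cr_254000 : ∀ i, 254000 ≤ i → i < 256000 → regOK (rOf RT M) (cjOf RT M) i = true)) (range_glue ((regRange_spec cr_256000 : ∀ i, 256000 ≤ i → i < 258000 → regOK (rOf RT M) (cjOf RT M) i = true)) ((regRange_spec cr_258000 : ∀ i, 258000 ≤ i → i < 260000 → regOK (rOf RT M) (cjOf RT M) i = true)))))) (range_glue (range_glue (range_glue ((regRange_spec cr_260000 : ∀ i, 260000 ≤ i → i < 262000 → regOK (rOf RT M) (cjOf RT M) i = true)) ((regRange_spec cr_262000 : ∀ i, 262000 ≤ i → i < 264000 → regOK (rOf RT M) (cjOf RT M) i = true))) (range_glue ((regRange_spec cr_264000 : ∀ i, 264000 ≤ i → i < 266000 → regOK (rOf RT M) (cjOf RT M) i = true)) (range_glue ((regRange_spec cr_266000 : ∀ i, 266000 ≤ i → i < 268000 → regOK (rOf RT M) (cjOf RT M) i = true)) ((regRange_spec cr_268000 : ∀ i, 268000 ≤ i → i < 270000 → regOK (rOf RT M) (cjOf RT M) i = true))))) (range_glue (range_glue ((regRange_spec cr_270000 : ∀ i, 270000 ≤ i → i < 272000 → regOK (rOf RT M) (cjOf RT M) i = true)) ((regRange_spec cr_272000 : ∀ i, 272000 ≤ i → i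 < 274000 → regOK (rOf RT M) (cjOf RT M) i = true))) (range_glue ((regRange_spec cr_274000 : ∀ i, 274000 ≤ i → i < 276000 → regOK (rOf RT M) (cjOf RT M) i = true)) (range_glue ((regRange_spec cr_276000 : ∀ i, 276000 ≤ i → i < 278000 → regOK (rOf RT M) (cjOf RT M) i = true)) ((regRange_spec cr_278000 : ∀ i, 278000 ≤ i → i < 280000 → regOK (rOf RT M) (cjOf RT M) i = true))))))) (range_glue (range_glue (range_glue (range_glue ((regRange_spec cr_280000 : ∀ i, 280000 ≤ i → i < 282000 → regOK (rOf RT M) (cjOf RT M) i = true)) ((regRange_spec cr_282000 : ∀ i, 282000 ≤ i → i < 284000 → regOK (rOf RT M) (cjOf RT M) i = true))) (range_glue ((regRange_spec cr_284000 : ∀ i, 284000 ≤ i → i < 286000 → regOK (rOf RT M) (cjOf RT M) i = true)) (range_glue ((regRange_spec cr_286000 : ∀ i, 286000 ≤ i → i < 288000 → regOK (rOf RT M) (cjOf RT M) i = true)) ((regRange_spec cr_288000 : ∀ i, 288000 ≤ i → i < 290000 → regOK (rOf RT M) (cjOf RT M) i = true))))) (range_glue (range_glue ((regRange_spec cr_290000 : ∀ i, 290000 ≤ i → i < 292000 → regOK (rOf RT M) (cjOf RT M) i = true)) ((regRange_spec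 cr_292000 : ∀ i, 292000 ≤ i → i < 294000 → regOK (rOf RT M) (cjOf RT M) i = true))) (range_glue ((regRange_spec cr_294000 : ∀ i, 294000 ≤ i → i < 296000 → regOK (rOf RT M) (cjOf RT M) i = true)) (range_glue ((regRange_spec cr_296000 : ∀ i, 296000 ≤ i → i < 298000 → regOK (rOf RT M) (cjOf RT M) i = true)) ((regRange_spec cr_298000 : ∀ i, 298000 ≤ i → i < 300000 → regOK (rOf RT M) (cjOf RT M) i = true)))))) (range_glue (range_glue (range_glue ((regRange_spec cr_300000 : ∀ i, 300000 ≤ i → i < 302000 → regOK (rOf RT M) (cjOf RT M) i = true)) ((regRange_spec cr_302000 : ∀ i, 302000 ≤ i → i < 304000 → regOK (rOf RT M) (cjOf RT M) i = true))) (range_glue ((regRange_spec cr_304000 : ∀ i, 304000 ≤ i → i < 306000 → regOK (rOf RT M) (cjOf RT M) i = true)) (range_glue ((regRange_spec cr_306000 : ∀ i, 306000 ≤ i → i < 308000 → regOK (rOf RT M) (cjOf RT M) i = true)) ((regRange_spec cr_308000 : ∀ i, 308000 ≤ i → i < 310000 → regOK (rOf RT M) (cjOf RT M) i = true))))) (range_glue (range_glue ((regRange_spec cr_310000 : ∀ i, 310000 ≤ i → i < 312000 → regOK (rOf RT M) (cjOf RT M) i =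 true)) ((regRange_spec cr_312000 : ∀ i, 312000 ≤ i → i < 314000 → regOK (rOf RT M) (cjOf RT M) i = true))) (range_glue ((regRange_spec cr_314000 : ∀ i, 314000 ≤ i → i < 316000 → regOK (rOf RT M) (cjOf RT M) i = true)) (range_glue ((regRange_spec cr_316000 : ∀ i, 316000 ≤ i → i < 318000 → regOK (rOf RT M) (cjOf RT M) i = true)) ((regRange_spec cr_318000 : ∀ i, 318000 ≤ i → i < 320000 → regOK (rOf RT M) (cjOf RT M) i = true)))))))

end Crest.Agent.Lib.Saxl.Tb.G
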