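import Crest.Agent.Lib.Saxl.Tb.G.Table

set_option autoImplicit false
set_option Elab.async false

namespace Crest.Agent.Lib.Saxl.Tb.G

open Crest.Agent.Lib.Saxl Crest.Agent.Lib.Saxl.Tb

theorem cr_320000 : regRange RT M 320000 2000 = true := by decide +kernel
theorem cr_322000 : regRange RT M 322000 2000 = true := by decide +kernel
theorem cr_324000 : regRange RT M 324000 2000 = true := by decide +kernel
theorem cr_326000 : regRange RT M 326000 1695 = true := by decide +kernel

theorem crs_4 : ∀ i, 320000 ≤ i → i < 327695 → regOK (rOf RT M) (cjOf RT M) i = true :=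
  range_glue (range_glue ((regRange_spec cr_320000 : ∀ i, 320000 ≤ i → i < 322000 → regOK (rOf RT M) (cjOf RT M) i = true)) ((regRange_spec cr_322000 : ∀ i, 322000 ≤ i → i < 324000 → regOK (rOf RT M) (cjOf RT M) i = true))) (range_glue ((regRange_spec cr_324000 : ∀ i, 324000 ≤ i → i < 326000 → regOK (rOf RT M) (cjOf RT M) i = true)) ((regRange_spec cr_326000 : ∀ i, 326000 ≤ i → i < 327695 → regOK (rOf RT M) (cjOf RT M) i = true)))

end Crest.Agent.Lib.Saxl.Tb.G
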