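import Crest.Agent.Lib.Saxl.Tb.G.Table

set_option autoImplicit false
set_option Elab.async false

namespace Crest.Agent.Lib.Saxl.Tb.G

open Crest.Agent.Lib.Saxl Crest.Agent.Lib.Saxl.Tb

theorem ct_0 : recRange B RT TT M 0 1500 = true := by decide +kernel
theorem ct_1500 : recRange B RT TT M 1500 1500 = true := by decide +kernel
theorem ct_3000 : recRange B RT TT M 3000 1500 = true := by decide +kernel
theorem ct_4500 : recRange B RT TT M 4500 1500 = true := by decide +kernel
theorem ct_6000 : recRange B RT TT M 6000 1500 = true := by decide +kernel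
theorem ct_7500 : recRange B RT TT M 7500 1500 = true := by decide +kernel
theorem ct_9000 : recRange B RT TT M 9000 1500 = true := by decide +kernel
theorem ct_10500 : recRange B RT TT M 10500 1500 = true := by decide +kernel
theorem ct_12000 : recRange B RT TT M 12000 1500 = true := by decide +kernel
theorem ct_13500 : recRange B RT TT M 13500 1500 = true := by decide +kernel
theorem ct_15000 : recRange B RT TT M 15000 1500 = true := by decide +kernel
theorem ct_16500 : recRange B RT TT M 16500 1500 = true := by decide +kernel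
theorem ct_18000 : recRange B RT TT M 18000 1500 = true := by decide +kernel
theorem ct_19500 : recRange B RT TT M 19500 1500 = true := by decide +kernel
theorem ct_21000 : recRange B RT TT M 21000 1500 = true := by decide +kernel
theorem ct_22500 : recRange B RT TT M 22500 1500 = true := by decide +kernel
theorem ct_24000 : recRange B RT TT M 24000 1500 = true := by decide +kernel
theorem ct_25500 : recRange B RT TT M 25500 1500 = true := by decide +kernel
theorem ct_27000 : recRange B RT TT M 27000 1500 = true := by decide +kernel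
theorem ct_28500 : recRange B RT TT M 28500 1500 = true := by decide +kernel
theorem ct_30000 : recRange B RT TT M 30000 1500 = true := by decide +kernel
theorem ct_31500 : recRange B RT TT M 31500 1500 = true := by decide +kernel
theorem ct_33000 : recRange B RT TT M 33000 1500 = true := by decide +kernel
theorem ct_34500 : recRange B RT TT M 34500 1500 = true := by decide +kernel
theorem ct_36000 : recRange B RT TT M 36000 1500 = true := by decide +kernel
theorem ct_37500 : recRange B RT TT M 37500 1500 = true := by decide +kernel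
theorem ct_39000 : recRange B RT TT M 39000 1500 = true := by decide +kernel
theorem ct_40500 : recRange B RT TT M 40500 1500 = true := by decide +kernel
theorem ct_42000 : recRange B RT TT M 42000 1500 = true := by decide +kernel
theorem ct_43500 : recRange B RT TT M 43500 1500 = true := by decide +kernel
theorem ct_45000 : recRange B RT TT M 45000 1500 = true := by decide +kernel
theorem ct_46500 : recRange B RT TT M 46500 1500 = true := by decide +kernel
theorem ct_48000 : recRange B RT TT M 48000 1500 = true := by decide +kernel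
theorem ct_49500 : recRange B RT TT M 49500 1500 = true := by decide +kernel
theorem ct_51000 : recRange B RT TT M 51000 1500 = true := by decide +kernel
theorem ct_52500 : recRange B RT TT M 52500 1500 = true := by decide +kernel
theorem ct_54000 : recRange B RT TT M 54000 1500 = true := by decide +kernel
theorem ct_55500 : recRange B RT TT M 55500 1500 = true := by decide +kernel
theorem ct_57000 : recRange B RT TT M 57000 1500 = true := by decide +kernel
theorem ct_58500 : recRange B RT TT M 58500 1500 = true := by decide +kernel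

theorem cts_0 : ∀ i, 0 ≤ i → i < 60000 → recOK B (rOf RT M) (cjOf RT M) TT.find i = true :=
  range_glue (range_glue (range_glue (range_glue (range_glue ((recRange_spec ct_0 : ∀ i, 0 ≤ i → i < 1500 → recOK B (rOf RT M) (cjOf RT M) TT.find i = true)) ((recRange_spec ct_1500 : ∀ i, 1500 ≤ i → i < 3000 → recOK B (rOf RT M) (cjOf RT M) TT.find i = true))) (range_glue ((recRange_spec ct_3000 : ∀ i, 3000 ≤ i → i < 4500 → recOK B (rOf RT M) (cjOf RT M) TT.find i = true)) (range_glue ((recRange_spec ct_4500 : ∀ i, 4500 ≤ i → i < 6000 → recOK B (rOf RT M) (cjOf RT M) TT.find i = true)) ((recRange_spec ct_6000 : ∀ i, 6000 ≤ i → i < 7500 → recOK B (rOf RT M) (cjOf RT M) TT.find i = true))))) (range_glue (range_glue ((recRange_spec ct_7500 : ∀ i, 7500 ≤ i → i < 9000 → recOK B (rOf RT M) (cjOf RT M) TT.find i = true)) ((recRange_spec ct_9000 : ∀ i, 9000 ≤ i → i < 10500 → recOK B (rOf RT M) (cjOf RT M) TT.find i = true))) (range_glue ((recRange_spec ct_10500 : ∀ i, 10500 ≤ i → i < 12000 → recOK B (rOf RT M) (cjOf RT M) TT.find i = true)) (range_glue ((recRange_spec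 ct_12000 : ∀ i, 12000 ≤ i → i < 13500 → recOK B (rOf RT M) (cjOf RT M) TT.find i = true)) ((recRange_spec ct_13500 : ∀ i, 13500 ≤ i → i < 15000 → recOK B (rOf RT M) (cjOf RT M) TT.find i = true)))))) (range_glue (range_glue (range_glue ((recRange_spec ct_15000 : ∀ i, 15000 ≤ i → i < 16500 → recOK B (rOf RT M) (cjOf RT M) TT.find i = true)) ((recRange_spec ct_16500 : ∀ i, 16500 ≤ i → i < 18000 → recOK B (rOf RT M) (cjOf RT M) TT.find i = true))) (range_glue ((recRange_spec ct_18000 : ∀ i, 18000 ≤ i → i < 19500 → recOK B (rOf RT M) (cjOf RT M) TT.find i = true)) (range_glue ((recRange_spec ct_19500 : ∀ i, 19500 ≤ i → i < 21000 → recOK B (rOf RT M) (cjOf RT M) TT.find i = true)) ((recRange_spec ct_21000 : ∀ i, 21000 ≤ i → i < 22500 → recOK B (rOf RT M) (cjOf RT M) TT.find i = true))))) (range_glue (range_glue ((recRange_spec ct_22500 : ∀ i, 22500 ≤ i → i < 24000 → recOK B (rOf RT M) (cjOf RT M) TT.find i = true)) ((recRange_spec ct_24000 : ∀ i, 24000 ≤ i → i < 25500 → recOK B (rOf RT M) (cjOf RT M) TT.find i = true))) (range_glue ((recRange_spec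 ct_25500 : ∀ i, 25500 ≤ i → i < 27000 → recOK B (rOf RT M) (cjOf RT M) TT.find i = true)) (range_glue ((recRange_spec ct_27000 : ∀ i, 27000 ≤ i → i < 28500 → recOK B (rOf RT M) (cjOf RT M) TT.find i = true)) ((recRange_spec ct_28500 : ∀ i, 28500 ≤ i → i < 30000 → recOK B (rOf RT M) (cjOf RT M) TT.find i = true))))))) (range_glue (range_glue (range_glue (range_glue ((recRange_spec ct_30000 : ∀ i, 30000 ≤ i → i < 31500 → recOK B (rOf RT M) (cjOf RT M) TT.find i = true)) ((recRange_spec ct_31500 : ∀ i, 31500 ≤ i → i < 33000 → recOK B (rOf RT M) (cjOf RT M) TT.find i = true))) (range_glue ((recRange_spec ct_33000 : ∀ i, 33000 ≤ i → i < 34500 → recOK B (rOf RT M) (cjOf RT M) TT.find i = true)) (range_glue ((recRange_spec ct_34500 : ∀ i, 34500 ≤ i → i < 36000 → recOK B (rOf RT M) (cjOf RT M) TT.find i = true)) ((recRange_spec ct_36000 : ∀ i, 36000 ≤ i → i < 37500 → recOK B (rOf RT M) (cjOf RT M) TT.find i = true))))) (range_glue (range_glue ((recRange_spec ct_37500 : ∀ i, 37500 ≤ i → i < 39000 → recOK B (rOf RT M) (cjOf RT M) TT.find i = true)) ((recRange_spec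 ct_39000 : ∀ i, 39000 ≤ i → i < 40500 → recOK B (rOf RT M) (cjOf RT M) TT.find i = true))) (range_glue ((recRange_spec ct_40500 : ∀ i, 40500 ≤ i → i < 42000 → recOK B (rOf RT M) (cjOf RT M) TT.find i = true)) (range_glue ((recRange_spec ct_42000 : ∀ i, 42000 ≤ i → i < 43500 → recOK B (rOf RT M) (cjOf RT M) TT.find i = true)) ((recRange_spec ct_43500 : ∀ i, 43500 ≤ i → i < 45000 → recOK B (rOf RT M) (cjOf RT M) TT.find i = true)))))) (range_glue (range_glue (range_glue ((recRange_spec ct_45000 : ∀ i, 45000 ≤ i → i < 46500 → recOK B (rOf RT M) (cjOf RT M) TT.find i = true)) ((recRange_spec ct_46500 : ∀ i, 46500 ≤ i → i < 48000 → recOK B (rOf RT M) (cjOf RT M) TT.find i = true))) (range_glue ((recRange_spec ct_48000 : ∀ i, 48000 ≤ i → i < 49500 → recOK B (rOf RT M) (cjOf RT M) TT.find i = true)) (range_glue ((recRange_spec ct_49500 : ∀ i, 49500 ≤ i → i < 51000 → recOK B (rOf RT M) (cjOf RT M) TT.find i = true)) ((recRange_spec ct_51000 : ∀ i, 51000 ≤ i → i < 52500 → recOK B (rOf RT M) (cjOf RT M) TT.find i = true))))) (range_glue (range_glue ((recRange_spec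 ct_52500 : ∀ i, 52500 ≤ i → i < 54000 → recOK B (rOf RT M) (cjOf RT M) TT.find i = true)) ((recRange_spec ct_54000 : ∀ i, 54000 ≤ i → i < 55500 → recOK B (rOf RT M) (cjOf RT M) TT.find i = true))) (range_glue ((recRange_spec ct_55500 : ∀ i, 55500 ≤ i → i < 57000 → recOK B (rOf RT M) (cjOf RT M) TT.find i = true)) (range_glue ((recRange_spec ct_57000 : ∀ i, 57000 ≤ i → i < 58500 → recOK B (rOf RT M) (cjOf RT M) TT.find i = true)) ((recRange_spec ct_58500 : ∀ i, 58500 ≤ i → i < 60000 → recOK B (rOf RT M) (cjOf RT M) TT.find i = true)))))))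

end Crest.Agent.Lib.Saxl.Tb.G
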