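import Crest.Agent.Lib.Saxl.Tb.G.Table

set_option autoImplicit false
set_option Elab.async false

namespace Crest.Agent.Lib.Saxl.Tb.G

open Crest.Agent.Lib.Saxl Crest.Agent.Lib.Saxl.Tb

theorem ct_60000 : recRange B RT TT M 60000 1500 = true := by decide +kernel
theorem ct_61500 : recRange B RT TT M 61500 1500 = true := by decide +kernel
theorem ct_63000 : recRange B RT TT M 63000 1500 = true := by decide +kernel
theorem ct_64500 : recRange B RT TT M 64500 1500 = true := by decide +kernel
theorem ct_66000 : recRange B RT TT M 66000 1500 = true := by decide +kernel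
theorem ct_67500 : recRange B RT TT M 67500 1500 = true := by decide +kernel
theorem ct_69000 : recRange B RT TT M 69000 1500 = true := by decide +kernel
theorem ct_70500 : recRange B RT TT M 70500 1500 = true := by decide +kernel
theorem ct_72000 : recRange B RT TT M 72000 1500 = true := by decide +kernel
theorem ct_73500 : recRange B RT TT M 73500 1500 = true := by decide +kernel
theorem ct_75000 : recRange B RT TT M 75000 1500 = true := by decide +kernel
theorem ct_76500 : recRange B RT TT M 76500 1500 = true := by decide +kernel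
theorem ct_78000 : recRange B RT TT M 78000 1500 = true := by decide +kernel
theorem ct_79500 : recRange B RT TT M 79500 1500 = true := by decide +kernel
theorem ct_81000 : recRange B RT TT M 81000 1500 = true := by decide +kernel
theorem ct_82500 : recRange B RT TT M 82500 1500 = true := by decide +kernel
theorem ct_84000 : recRange B RT TT M 84000 1500 = true := by decide +kernel
theorem ct_85500 : recRange B RT TT M 85500 1500 = true := by decide +kernel
theorem ct_87000 : recRange B RT TT M 87000 1500 = true := by decide +kernel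
theorem ct_88500 : recRange B RT TT M 88500 1500 = true := by decide +kernel
theorem ct_90000 : recRange B RT TT M 90000 1500 = true := by decide +kernel
theorem ct_91500 : recRange B RT TT M 91500 1500 = true := by decide +kernel
theorem ct_93000 : recRange B RT TT M 93000 1500 = true := by decide +kernel
theorem ct_94500 : recRange B RT TT M 94500 1500 = true := by decide +kernel
theorem ct_96000 : recRange B RT TT M 96000 1500 = true := by decide +kernel
theorem ct_97500 : recRange B RT TT M 97500 1500 = true := by decide +kernel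
theorem ct_99000 : recRange B RT TT M 99000 1500 = true := by decide +kernel
theorem ct_100500 : recRange B RT TT M 100500 1500 = true := by decide +kernel
theorem ct_102000 : recRange B RT TT M 102000 1500 = true := by decide +kernel
theorem ct_103500 : recRange B RT TT M 103500 1500 = true := by decide +kernel
theorem ct_105000 : recRange B RT TT M 105000 1500 = true := by decide +kernel
theorem ct_106500 : recRange B RT TT M 106500 1500 = true := by decide +kernel
theorem ct_108000 : recRange B RT TT M 108000 1500 = true := by decide +kernel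
theorem ct_109500 : recRange B RT TT M 109500 1500 = true := by decide +kernel
theorem ct_111000 : recRange B RT TT M 111000 1500 = true := by decide +kernel
theorem ct_112500 : recRange B RT TT M 112500 1500 = true := by decide +kernel
theorem ct_114000 : recRange B RT TT M 114000 1500 = true := by decide +kernel
theorem ct_115500 : recRange B RT TT M 115500 1500 = true := by decide +kernel
theorem ct_117000 : recRange B RT TT M 117000 1500 = true := by decide +kernel
theorem ct_118500 : recRange B RT TT M 118500 1500 = true := by decide +kernel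

theorem cts_1 : ∀ i, 60000 ≤ i → i < 120000 → recOK B (rOf RT M) (cjOf RT M) TT.find i = true :=
  range_glue (range_glue (range_glue (range_glue (range_glue ((recRange_spec ct_60000 : ∀ i, 60000 ≤ i → i < 61500 → recOK B (rOf RT M) (cjOf RT M) TT.find i = true)) ((recRange_spec ct_61500 : ∀ i, 61500 ≤ i → i < 63000 → recOK B (rOf RT M) (cjOf RT M) TT.find i = true))) (range_glue ((recRange_spec ct_63000 : ∀ i, 63000 ≤ i → i < 64500 → recOK B (rOf RT M) (cjOf RT M) TT.find i = true)) (range_glue ((recRange_spec ct_64500 : ∀ i, 64500 ≤ i → i < 66000 → recOK B (rOf RT M) (cjOf RT M) TT.find i = true)) ((recRange_spec ct_66000 : ∀ i, 66000 ≤ i → i < 67500 → recOK B (rOf RT M) (cjOf RT M) TT.find i = true))))) (range_glue (range_glue ((recRange_spec ct_67500 : ∀ i, 67500 ≤ i → i < 69000 → recOK B (rOf RT M) (cjOf RT M) TT.find i = true)) ((recRange_spec ct_69000 : ∀ i, 69000 ≤ i → i < 70500 → recOK B (rOf RT M) (cjOf RT M) TT.find i = true))) (range_glue ((recRange_spec ct_70500 : ∀ i, 70500 ≤ i → i < 72000 → recOK B (rOf RT M) (cjOf RT M) TT.find i = true))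 (range_glue ((recRange_spec ct_72000 : ∀ i, 72000 ≤ i → i < 73500 → recOK B (rOf RT M) (cjOf RT M) TT.find i = true)) ((recRange_spec ct_73500 : ∀ i, 73500 ≤ i → i < 75000 → recOK B (rOf RT M) (cjOf RT M) TT.find i = true)))))) (range_glue (range_glue (range_glue ((recRange_spec ct_75000 : ∀ i, 75000 ≤ i → i < 76500 → recOK B (rOf RT M) (cjOf RT M) TT.find i = true)) ((recRange_spec ct_76500 : ∀ i, 76500 ≤ i → i < 78000 → recOK B (rOf RT M) (cjOf RT M) TT.find i = true))) (range_glue ((recRange_spec ct_78000 : ∀ i, 78000 ≤ i → i < 79500 → recOK B (rOf RT M) (cjOf RT M) TT.find i = true)) (range_glue ((recRange_spec ct_79500 : ∀ i, 79500 ≤ i → i < 81000 → recOK B (rOf RT M) (cjOf RT M) TT.find i = true)) ((recRange_spec ct_81000 : ∀ i, 81000 ≤ i → i < 82500 → recOK B (rOf RT M) (cjOf RT M) TT.find i = true))))) (range_glue (range_glue ((recRange_spec ct_82500 : ∀ i, 82500 ≤ i → i < 84000 → recOK B (rOf RT M) (cjOf RT M) TT.find i = true)) ((recRange_spec ct_84000 : ∀ i, 84000 ≤ i → i < 85500 → recOK B (rOf RT M) (cjOf RT M) TT.find i = true))) (range_glue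 ((recRange_spec ct_85500 : ∀ i, 85500 ≤ i → i < 87000 → recOK B (rOf RT M) (cjOf RT M) TT.find i = true)) (range_glue ((recRange_spec ct_87000 : ∀ i, 87000 ≤ i → i < 88500 → recOK B (rOf RT M) (cjOf RT M) TT.find i = true)) ((recRange_spec ct_88500 : ∀ i, 88500 ≤ i → i < 90000 → recOK B (rOf RT M) (cjOf RT M) TT.find i = true))))))) (range_glue (range_glue (range_glue (range_glue ((recRange_spec ct_90000 : ∀ i, 90000 ≤ i → i < 91500 → recOK B (rOf RT M) (cjOf RT M) TT.find i = true)) ((recRange_spec ct_91500 : ∀ i, 91500 ≤ i → i < 93000 → recOK B (rOf RT M) (cjOf RT M) TT.find i = true))) (range_glue ((recRange_spec ct_93000 : ∀ i, 93000 ≤ i → i < 94500 → recOK B (rOf RT M) (cjOf RT M) TT.find i = true)) (range_glue ((recRange_spec ct_94500 : ∀ i, 94500 ≤ i → i < 96000 → recOK B (rOf RT M) (cjOf RT M) TT.find i = true)) ((recRange_spec ct_96000 : ∀ i, 96000 ≤ i → i < 97500 → recOK B (rOf RT M) (cjOf RT M) TT.find i = true))))) (range_glue (range_glue ((recRange_spec ct_97500 : ∀ i, 97500 ≤ i → i < 99000 → recOK B (rOf RT M) (cjOf RT M) TT.find i = true))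 ((recRange_spec ct_99000 : ∀ i, 99000 ≤ i → i < 100500 → recOK B (rOf RT M) (cjOf RT M) TT.find i = true))) (range_glue ((recRange_spec ct_100500 : ∀ i, 100500 ≤ i → i < 102000 → recOK B (rOf RT M) (cjOf RT M) TT.find i = true)) (range_glue ((recRange_spec ct_102000 : ∀ i, 102000 ≤ i → i < 103500 → recOK B (rOf RT M) (cjOf RT M) TT.find i = true)) ((recRange_spec ct_103500 : ∀ i, 103500 ≤ i → i < 105000 → recOK B (rOf RT M) (cjOf RT M) TT.find i = true)))))) (range_glue (range_glue (range_glue ((recRange_spec ct_105000 : ∀ i, 105000 ≤ i → i < 106500 → recOK B (rOf RT M) (cjOf RT M) TT.find i = true)) ((recRange_spec ct_106500 : ∀ i, 106500 ≤ i → i < 108000 → recOK B (rOf RT M) (cjOf RT M) TT.find i = true))) (range_glue ((recRange_spec ct_108000 : ∀ i, 108000 ≤ i → i < 109500 → recOK B (rOf RT M) (cjOf RT M) TT.find i = true)) (range_glue ((recRange_spec ct_109500 : ∀ i, 109500 ≤ i → i < 111000 → recOK B (rOf RT M) (cjOf RT M) TT.find i = true)) ((recRange_spec ct_111000 : ∀ i, 111000 ≤ i → i < 112500 → recOK B (rOf RT M) (cjOf RT M) TT.find i = true)))))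 (range_glue (range_glue ((recRange_spec ct_112500 : ∀ i, 112500 ≤ i → i < 114000 → recOK B (rOf RT M) (cjOf RT M) TT.find i = true)) ((recRange_spec ct_114000 : ∀ i, 114000 ≤ i → i < 115500 → recOK B (rOf RT M) (cjOf RT M) TT.find i = true))) (range_glue ((recRange_spec ct_115500 : ∀ i, 115500 ≤ i → i < 117000 → recOK B (rOf RT M) (cjOf RT M) TT.find i = true)) (range_glue ((recRange_spec ct_117000 : ∀ i, 117000 ≤ i → i < 118500 → recOK B (rOf RT M) (cjOf RT M) TT.find i = true)) ((recRange_spec ct_118500 : ∀ i, 118500 ≤ i → i < 120000 → recOK B (rOf RT M) (cjOf RT M) TT.find i = true)))))))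

end Crest.Agent.Lib.Saxl.Tb.G
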