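import Crest.Agent.Lib.Saxl.Tb.G.Table

set_option autoImplicit false
set_option Elab.async false

namespace Crest.Agent.Lib.Saxl.Tb.G

open Crest.Agent.Lib.Saxl Crest.Agent.Lib.Saxl.Tb

theorem ct_120000 : recRange B RT TT M 120000 1500 = true := by decide +kernel
theorem ct_121500 : recRange B RT TT M 121500 1500 = true := by decide +kernel
theorem ct_123000 : recRange B RT TT M 123000 1500 = true := by decide +kernel
theorem ct_124500 : recRange B RT TT M 124500 1500 = true := by decide +kernel
theorem ct_126000 : recRange B RT TT M 126000 1500 = true := by decide +kernel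
theorem ct_127500 : recRange B RT TT M 127500 1500 = true := by decide +kernel
theorem ct_129000 : recRange B RT TT M 129000 1500 = true := by decide +kernel
theorem ct_130500 : recRange B RT TT M 130500 1500 = true := by decide +kernel
theorem ct_132000 : recRange B RT TT M 132000 1500 = true := by decide +kernel
theorem ct_133500 : recRange B RT TT M 133500 1500 = true := by decide +kernel
theorem ct_135000 : recRange B RT TT M 135000 1500 = true := by decide +kernel
theorem ct_136500 : recRange B RT TT M 136500 1500 = true := by decide +kernel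
theorem ct_138000 : recRange B RT TT M 138000 1500 = true := by decide +kernel
theorem ct_139500 : recRange B RT TT M 139500 1500 = true := by decide +kernel
theorem ct_141000 : recRange B RT TT M 141000 1500 = true := by decide +kernel
theorem ct_142500 : recRange B RT TT M 142500 1500 = true := by decide +kernel
theorem ct_144000 : recRange B RT TT M 144000 1500 = true := by decide +kernel
theorem ct_145500 : recRange B RT TT M 145500 1500 = true := by decide +kernel
theorem ct_147000 : recRange B RT TT M 147000 1500 = true := by decide +kernel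
theorem ct_148500 : recRange B RT TT M 148500 1500 = true := by decide +kernel
theorem ct_150000 : recRange B RT TT M 150000 1500 = true := by decide +kernel
theorem ct_151500 : recRange B RT TT M 151500 1500 = true := by decide +kernel
theorem ct_153000 : recRange B RT TT M 153000 1500 = true := by decide +kernel
theorem ct_154500 : recRange B RT TT M 154500 1500 = true := by decide +kernel
theorem ct_156000 : recRange B RT TT M 156000 1500 = true := by decide +kernel
theorem ct_157500 : recRange B RT TT M 157500 1500 = true := by decide +kernel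
theorem ct_159000 : recRange B RT TT M 159000 1500 = true := by decide +kernel
theorem ct_160500 : recRange B RT TT M 160500 1500 = true := by decide +kernel
theorem ct_162000 : recRange B RT TT M 162000 1500 = true := by decide +kernel
theorem ct_163500 : recRange B RT TT M 163500 1500 = true := by decide +kernel
theorem ct_165000 : recRange B RT TT M 165000 1500 = true := by decide +kernel
theorem ct_166500 : recRange B RT TT M 166500 1500 = true := by decide +kernel
theorem ct_168000 : recRange B RT TT M 168000 1500 = true := by decide +kernel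
theorem ct_169500 : recRange B RT TT M 169500 1500 = true := by decide +kernel
theorem ct_171000 : recRange B RT TT M 171000 1500 = true := by decide +kernel
theorem ct_172500 : recRange B RT TT M 172500 1500 = true := by decide +kernel
theorem ct_174000 : recRange B RT TT M 174000 1500 = true := by decide +kernel
theorem ct_175500 : recRange B RT TT M 175500 1500 = true := by decide +kernel
theorem ct_177000 : recRange B RT TT M 177000 1500 = true := by decide +kernel
theorem ct_178500 : recRange B RT TT M 178500 1500 = true := by decide +kernel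

theorem cts_2 : ∀ i, 120000 ≤ i → i < 180000 → recOK B (rOf RT M) (cjOf RT M) TT.find i = true :=
  range_glue (range_glue (range_glue (range_glue (range_glue ((recRange_spec ct_120000 : ∀ i, 120000 ≤ i → i < 121500 → recOK B (rOf RT M) (cjOf RT M) TT.find i = true)) ((recRange_spec ct_121500 : ∀ i, 121500 ≤ i → i < 123000 → recOK B (rOf RT M) (cjOf RT M) TT.find i = true))) (range_glue ((recRange_spec ct_123000 : ∀ i, 123000 ≤ i → i < 124500 → recOK B (rOf RT M) (cjOf RT M) TT.find i = true)) (range_glue ((recRange_spec ct_124500 : ∀ i, 124500 ≤ i → i < 126000 → recOK B (rOf RT M) (cjOf RT M) TT.find i = true)) ((recRange_spec ct_126000 : ∀ i, 126000 ≤ i → i < 127500 → recOK B (rOf RT M) (cjOf RT M) TT.find i = true))))) (range_glue (range_glue ((recRange_spec ct_127500 : ∀ i, 127500 ≤ i → i < 129000 → recOK B (rOf RT M) (cjOf RT M) TT.find i = true)) ((recRange_spec ct_129000 : ∀ i, 129000 ≤ i → i < 130500 → recOK B (rOf RT M) (cjOf RT M) TT.find i = true))) (range_glue ((recRange_spec ct_130500 : ∀ i, 130500 ≤ i → i < 132000 → recOK B (rOf RT M) (cjOf RT M) TT.find i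 = true)) (range_glue ((recRange_spec ct_132000 : ∀ i, 132000 ≤ i → i < 133500 → recOK B (rOf RT M) (cjOf RT M) TT.find i = true)) ((recRange_spec ct_133500 : ∀ i, 133500 ≤ i → i < 135000 → recOK B (rOf RT M) (cjOf RT M) TT.find i = true)))))) (range_glue (range_glue (range_glue ((recRange_spec ct_135000 : ∀ i, 135000 ≤ i → i < 136500 → recOK B (rOf RT M) (cjOf RT M) TT.find i = true)) ((recRange_spec ct_136500 : ∀ i, 136500 ≤ i → i < 138000 → recOK B (rOf RT M) (cjOf RT M) TT.find i = true))) (range_glue ((recRange_spec ct_138000 : ∀ i, 138000 ≤ i → i < 139500 → recOK B (rOf RT M) (cjOf RT M) TT.find i = true)) (range_glue ((recRange_spec ct_139500 : ∀ i, 139500 ≤ i → i < 141000 → recOK B (rOf RT M) (cjOf RT M) TT.find i = true)) ((recRange_spec ct_141000 : ∀ i, 141000 ≤ i → i < 142500 → recOK B (rOf RT M) (cjOf RT M) TT.find i = true))))) (range_glue (range_glue ((recRange_spec ct_142500 : ∀ i, 142500 ≤ i → i < 144000 → recOK B (rOf RT M) (cjOf RT M) TT.find i = true)) ((recRange_spec ct_144000 : ∀ i, 144000 ≤ i → i < 145500 → recOK B (rOf RT M) (cjOf RT M) TT.find i =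 true))) (range_glue ((recRange_spec ct_145500 : ∀ i, 145500 ≤ i → i < 147000 → recOK B (rOf RT M) (cjOf RT M) TT.find i = true)) (range_glue ((recRange_spec ct_147000 : ∀ i, 147000 ≤ i → i < 148500 → recOK B (rOf RT M) (cjOf RT M) TT.find i = true)) ((recRange_spec ct_148500 : ∀ i, 148500 ≤ i → i < 150000 → recOK B (rOf RT M) (cjOf RT M) TT.find i = true))))))) (range_glue (range_glue (range_glue (range_glue ((recRange_spec ct_150000 : ∀ i, 150000 ≤ i → i < 151500 → recOK B (rOf RT M) (cjOf RT M) TT.find i = true)) ((recRange_spec ct_151500 : ∀ i, 151500 ≤ i → i < 153000 → recOK B (rOf RT M) (cjOf RT M) TT.find i = true))) (range_glue ((recRange_spec ct_153000 : ∀ i, 153000 ≤ i → i < 154500 → recOK B (rOf RT M) (cjOf RT M) TT.find i = true)) (range_glue ((recRange_spec ct_154500 : ∀ i, 154500 ≤ i → i < 156000 → recOK B (rOf RT M) (cjOf RT M) TT.find i = true)) ((recRange_spec ct_156000 : ∀ i, 156000 ≤ i → i < 157500 → recOK B (rOf RT M) (cjOf RT M) TT.find i = true))))) (range_glue (range_glue ((recRange_spec ct_157500 : ∀ i, 157500 ≤ i → i < 159000 → recOK B (rOf RT M)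 (cjOf RT M) TT.find i = true)) ((recRange_spec ct_159000 : ∀ i, 159000 ≤ i → i < 160500 → recOK B (rOf RT M) (cjOf RT M) TT.find i = true))) (range_glue ((recRange_spec ct_160500 : ∀ i, 160500 ≤ i → i < 162000 → recOK B (rOf RT M) (cjOf RT M) TT.find i = true)) (range_glue ((recRange_spec ct_162000 : ∀ i, 162000 ≤ i → i < 163500 → recOK B (rOf RT M) (cjOf RT M) TT.find i = true)) ((recRange_spec ct_163500 : ∀ i, 163500 ≤ i → i < 165000 → recOK B (rOf RT M) (cjOf RT M) TT.find i = true)))))) (range_glue (range_glue (range_glue ((recRange_spec ct_165000 : ∀ i, 165000 ≤ i → i < 166500 → recOK B (rOf RT M) (cjOf RT M) TT.find i = true)) ((recRange_spec ct_166500 : ∀ i, 166500 ≤ i → i < 168000 → recOK B (rOf RT M) (cjOf RT M) TT.find i = true))) (range_glue ((recRange_spec ct_168000 : ∀ i, 168000 ≤ i → i < 169500 → recOK B (rOf RT M) (cjOf RT M) TT.find i = true)) (range_glue ((recRange_spec ct_169500 : ∀ i, 169500 ≤ i → i < 171000 → recOK B (rOf RT M) (cjOf RT M) TT.find i = true)) ((recRange_spec ct_171000 : ∀ i, 171000 ≤ i → i < 172500 → recOK B (rOf RT M) (cjOf RT M) TT.find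 i = true))))) (range_glue (range_glue ((recRange_spec ct_172500 : ∀ i, 172500 ≤ i → i < 174000 → recOK B (rOf RT M) (cjOf RT M) TT.find i = true)) ((recRange_spec ct_174000 : ∀ i, 174000 ≤ i → i < 175500 → recOK B (rOf RT M) (cjOf RT M) TT.find i = true))) (range_glue ((recRange_spec ct_175500 : ∀ i, 175500 ≤ i → i < 177000 → recOK B (rOf RT M) (cjOf RT M) TT.find i = true)) (range_glue ((recRange_spec ct_177000 : ∀ i, 177000 ≤ i → i < 178500 → recOK B (rOf RT M) (cjOf RT M) TT.find i = true)) ((recRange_spec ct_178500 : ∀ i, 178500 ≤ i → i < 180000 → recOK B (rOf RT M) (cjOf RT M) TT.find i = true)))))))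

end Crest.Agent.Lib.Saxl.Tb.G
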