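import Crest.Agent.Lib.Saxl.Tb.G.Table

set_option autoImplicit false
set_option Elab.async false

namespace Crest.Agent.Lib.Saxl.Tb.G

open Crest.Agent.Lib.Saxl Crest.Agent.Lib.Saxl.Tb

theorem ct_180000 : recRange B RT TT M 180000 1500 = true := by decide +kernel
theorem ct_181500 : recRange B RT TT M 181500 1500 = true := by decide +kernel
theorem ct_183000 : recRange B RT TT M 183000 1500 = true := by decide +kernel
theorem ct_184500 : recRange B RT TT M 184500 1500 = true := by decide +kernel
theorem ct_186000 : recRange B RT TT M 186000 1500 = true := by decide +kernel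
theorem ct_187500 : recRange B RT TT M 187500 1500 = true := by decide +kernel
theorem ct_189000 : recRange B RT TT M 189000 1500 = true := by decide +kernel
theorem ct_190500 : recRange B RT TT M 190500 1500 = true := by decide +kernel
theorem ct_192000 : recRange B RT TT M 192000 1500 = true := by decide +kernel
theorem ct_193500 : recRange B RT TT M 193500 1500 = true := by decide +kernel
theorem ct_195000 : recRange B RT TT M 195000 1500 = true := by decide +kernel
theorem ct_196500 : recRange B RT TT M 196500 1500 = true := by decide +kernel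
theorem ct_198000 : recRange B RT TT M 198000 1500 = true := by decide +kernel
theorem ct_199500 : recRange B RT TT M 199500 1500 = true := by decide +kernel
theorem ct_201000 : recRange B RT TT M 201000 1500 = true := by decide +kernel
theorem ct_202500 : recRange B RT TT M 202500 1500 = true := by decide +kernel
theorem ct_204000 : recRange B RT TT M 204000 1500 = true := by decide +kernel
theorem ct_205500 : recRange B RT TT M 205500 1500 = true := by decide +kernel
theorem ct_207000 : recRange B RT TT M 207000 1500 = true := by decide +kernel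
theorem ct_208500 : recRange B RT TT M 208500 1500 = true := by decide +kernel
theorem ct_210000 : recRange B RT TT M 210000 1500 = true := by decide +kernel
theorem ct_211500 : recRange B RT TT M 211500 1500 = true := by decide +kernel
theorem ct_213000 : recRange B RT TT M 213000 1500 = true := by decide +kernel
theorem ct_214500 : recRange B RT TT M 214500 1500 = true := by decide +kernel
theorem ct_216000 : recRange B RT TT M 216000 1500 = true := by decide +kernel
theorem ct_217500 : recRange B RT TT M 217500 1500 = true := by decide +kernel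
theorem ct_219000 : recRange B RT TT M 219000 1500 = true := by decide +kernel
theorem ct_220500 : recRange B RT TT M 220500 1500 = true := by decide +kernel
theorem ct_222000 : recRange B RT TT M 222000 1500 = true := by decide +kernel
theorem ct_223500 : recRange B RT TT M 223500 1500 = true := by decide +kernel
theorem ct_225000 : recRange B RT TT M 225000 1500 = true := by decide +kernel
theorem ct_226500 : recRange B RT TT M 226500 1500 = true := by decide +kernel
theorem ct_228000 : recRange B RT TT M 228000 1500 = true := by decide +kernel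
theorem ct_229500 : recRange B RT TT M 229500 1500 = true := by decide +kernel
theorem ct_231000 : recRange B RT TT M 231000 1500 = true := by decide +kernel
theorem ct_232500 : recRange B RT TT M 232500 1500 = true := by decide +kernel
theorem ct_234000 : recRange B RT TT M 234000 1500 = true := by decide +kernel
theorem ct_235500 : recRange B RT TT M 235500 1500 = true := by decide +kernel
theorem ct_237000 : recRange B RT TT M 237000 1500 = true := by decide +kernel
theorem ct_238500 : recRange B RT TT M 238500 1500 = true := by decide +kernel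

theorem cts_3 : ∀ i, 180000 ≤ i → i < 240000 → recOK B (rOf RT M) (cjOf RT M) TT.find i = true :=
  range_glue (range_glue (range_glue (range_glue (range_glue ((recRange_spec ct_180000 : ∀ i, 180000 ≤ i → i < 181500 → recOK B (rOf RT M) (cjOf RT M) TT.find i = true)) ((recRange_spec ct_181500 : ∀ i, 181500 ≤ i → i < 183000 → recOK B (rOf RT M) (cjOf RT M) TT.find i = true))) (range_glue ((recRange_spec ct_183000 : ∀ i, 183000 ≤ i → i < 184500 → recOK B (rOf RT M) (cjOf RT M) TT.find i = true)) (range_glue ((recRange_spec ct_184500 : ∀ i, 184500 ≤ i → i < 186000 → recOK B (rOf RT M) (cjOf RT M) TT.find i = true)) ((recRange_spec ct_186000 : ∀ i, 186000 ≤ i → i < 187500 → recOK B (rOf RT M) (cjOf RT M) TT.find i = true))))) (range_glue (range_glue ((recRange_spec ct_187500 : ∀ i, 187500 ≤ i → i < 189000 → recOK B (rOf RT M) (cjOf RT M) TT.find i = true)) ((recRange_spec ct_189000 : ∀ i, 189000 ≤ i → i < 190500 → recOK B (rOf RT M) (cjOf RT M) TT.find i = true))) (range_glue ((recRange_spec ct_190500 : ∀ i, 190500 ≤ i → i < 192000 → recOK B (rOf RT M) (cjOf RT M) TT.find i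 = true)) (range_glue ((recRange_spec ct_192000 : ∀ i, 192000 ≤ i → i < 193500 → recOK B (rOf RT M) (cjOf RT M) TT.find i = true)) ((recRange_spec ct_193500 : ∀ i, 193500 ≤ i → i < 195000 → recOK B (rOf RT M) (cjOf RT M) TT.find i = true)))))) (range_glue (range_glue (range_glue ((recRange_spec ct_195000 : ∀ i, 195000 ≤ i → i < 196500 → recOK B (rOf RT M) (cjOf RT M) TT.find i = true)) ((recRange_spec ct_196500 : ∀ i, 196500 ≤ i → i < 198000 → recOK B (rOf RT M) (cjOf RT M) TT.find i = true))) (range_glue ((recRange_spec ct_198000 : ∀ i, 198000 ≤ i → i < 199500 → recOK B (rOf RT M) (cjOf RT M) TT.find i = true)) (range_glue ((recRange_spec ct_199500 : ∀ i, 199500 ≤ i → i < 201000 → recOK B (rOf RT M) (cjOf RT M) TT.find i = true)) ((recRange_spec ct_201000 : ∀ i, 201000 ≤ i → i < 202500 → recOK B (rOf RT M) (cjOf RT M) TT.find i = true))))) (range_glue (range_glue ((recRange_spec ct_202500 : ∀ i, 202500 ≤ i → i < 204000 → recOK B (rOf RT M) (cjOf RT M) TT.find i = true)) ((recRange_spec ct_204000 : ∀ i, 204000 ≤ i → i < 205500 → recOK B (rOf RT M) (cjOf RT M) TT.find i =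 true))) (range_glue ((recRange_spec ct_205500 : ∀ i, 205500 ≤ i → i < 207000 → recOK B (rOf RT M) (cjOf RT M) TT.find i = true)) (range_glue ((recRange_spec ct_207000 : ∀ i, 207000 ≤ i → i < 208500 → recOK B (rOf RT M) (cjOf RT M) TT.find i = true)) ((recRange_spec ct_208500 : ∀ i, 208500 ≤ i → i < 210000 → recOK B (rOf RT M) (cjOf RT M) TT.find i = true))))))) (range_glue (range_glue (range_glue (range_glue ((recRange_spec ct_210000 : ∀ i, 210000 ≤ i → i < 211500 → recOK B (rOf RT M) (cjOf RT M) TT.find i = true)) ((recRange_spec ct_211500 : ∀ i, 211500 ≤ i → i < 213000 → recOK B (rOf RT M) (cjOf RT M) TT.find i = true))) (range_glue ((recRange_spec ct_213000 : ∀ i, 213000 ≤ i → i < 214500 → recOK B (rOf RT M) (cjOf RT M) TT.find i = true)) (range_glue ((recRange_spec ct_214500 : ∀ i, 214500 ≤ i → i < 216000 → recOK B (rOf RT M) (cjOf RT M) TT.find i = true)) ((recRange_spec ct_216000 : ∀ i, 216000 ≤ i → i < 217500 → recOK B (rOf RT M) (cjOf RT M) TT.find i = true))))) (range_glue (range_glue ((recRange_spec ct_217500 : ∀ i, 217500 ≤ i → i < 219000 → recOK B (rOf RT M)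 (cjOf RT M) TT.find i = true)) ((recRange_spec ct_219000 : ∀ i, 219000 ≤ i → i < 220500 → recOK B (rOf RT M) (cjOf RT M) TT.find i = true))) (range_glue ((recRange_spec ct_220500 : ∀ i, 220500 ≤ i → i < 222000 → recOK B (rOf RT M) (cjOf RT M) TT.find i = true)) (range_glue ((recRange_spec ct_222000 : ∀ i, 222000 ≤ i → i < 223500 → recOK B (rOf RT M) (cjOf RT M) TT.find i = true)) ((recRange_spec ct_223500 : ∀ i, 223500 ≤ i → i < 225000 → recOK B (rOf RT M) (cjOf RT M) TT.find i = true)))))) (range_glue (range_glue (range_glue ((recRange_spec ct_225000 : ∀ i, 225000 ≤ i → i < 226500 → recOK B (rOf RT M) (cjOf RT M) TT.find i = true)) ((recRange_spec ct_226500 : ∀ i, 226500 ≤ i → i < 228000 → recOK B (rOf RT M) (cjOf RT M) TT.find i = true))) (range_glue ((recRange_spec ct_228000 : ∀ i, 228000 ≤ i → i < 229500 → recOK B (rOf RT M) (cjOf RT M) TT.find i = true)) (range_glue ((recRange_spec ct_229500 : ∀ i, 229500 ≤ i → i < 231000 → recOK B (rOf RT M) (cjOf RT M) TT.find i = true)) ((recRange_spec ct_231000 : ∀ i, 231000 ≤ i → i < 232500 → recOK B (rOf RT M) (cjOf RT M) TT.find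 i = true))))) (range_glue (range_glue ((recRange_spec ct_232500 : ∀ i, 232500 ≤ i → i < 234000 → recOK B (rOf RT M) (cjOf RT M) TT.find i = true)) ((recRange_spec ct_234000 : ∀ i, 234000 ≤ i → i < 235500 → recOK B (rOf RT M) (cjOf RT M) TT.find i = true))) (range_glue ((recRange_spec ct_235500 : ∀ i, 235500 ≤ i → i < 237000 → recOK B (rOf RT M) (cjOf RT M) TT.find i = true)) (range_glue ((recRange_spec ct_237000 : ∀ i, 237000 ≤ i → i < 238500 → recOK B (rOf RT M) (cjOf RT M) TT.find i = true)) ((recRange_spec ct_238500 : ∀ i, 238500 ≤ i → i < 240000 → recOK B (rOf RT M) (cjOf RT M) TT.find i = true)))))))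

end Crest.Agent.Lib.Saxl.Tb.G
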