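import Crest.Agent.Lib.Saxl.Tb.G.Table

set_option autoImplicit false
set_option Elab.async false

namespace Crest.Agent.Lib.Saxl.Tb.G

open Crest.Agent.Lib.Saxl Crest.Agent.Lib.Saxl.Tb

theorem ct_240000 : recRange B RT TT M 240000 1500 = true := by decide +kernel
theorem ct_241500 : recRange B RT TT M 241500 1500 = true := by decide +kernel
theorem ct_243000 : recRange B RT TT M 243000 1500 = true := by decide +kernel
theorem ct_244500 : recRange B RT TT M 244500 1500 = true := by decide +kernel
theorem ct_246000 : recRange B RT TT M 246000 1500 = true := by decide +kernel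
theorem ct_247500 : recRange B RT TT M 247500 1500 = true := by decide +kernel
theorem ct_249000 : recRange B RT TT M 249000 1500 = true := by decide +kernel
theorem ct_250500 : recRange B RT TT M 250500 1500 = true := by decide +kernel
theorem ct_252000 : recRange B RT TT M 252000 1500 = true := by decide +kernel
theorem ct_253500 : recRange B RT TT M 253500 1500 = true := by decide +kernel
theorem ct_255000 : recRange B RT TT M 255000 1500 = true := by decide +kernel
theorem ct_256500 : recRange B RT TT M 256500 1500 = true := by decide +kernel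
theorem ct_258000 : recRange B RT TT M 258000 1500 = true := by decide +kernel
theorem ct_259500 : recRange B RT TT M 259500 1500 = true := by decide +kernel
theorem ct_261000 : recRange B RT TT M 261000 1500 = true := by decide +kernel
theorem ct_262500 : recRange B RT TT M 262500 1500 = true := by decide +kernel
theorem ct_264000 : recRange B RT TT M 264000 1500 = true := by decide +kernel
theorem ct_265500 : recRange B RT TT M 265500 1500 = true := by decide +kernel
theorem ct_267000 : recRange B RT TT M 267000 1500 = true := by decide +kernel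
theorem ct_268500 : recRange B RT TT M 268500 1500 = true := by decide +kernel
theorem ct_270000 : recRange B RT TT M 270000 1500 = true := by decide +kernel
theorem ct_271500 : recRange B RT TT M 271500 1500 = true := by decide +kernel
theorem ct_273000 : recRange B RT TT M 273000 1500 = true := by decide +kernel
theorem ct_274500 : recRange B RT TT M 274500 1500 = true := by decide +kernel
theorem ct_276000 : recRange B RT TT M 276000 1500 = true := by decide +kernel
theorem ct_277500 : recRange B RT TT M 277500 1500 = true := by decide +kernel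
theorem ct_279000 : recRange B RT TT M 279000 1500 = true := by decide +kernel
theorem ct_280500 : recRange B RT TT M 280500 1500 = true := by decide +kernel
theorem ct_282000 : recRange B RT TT M 282000 1500 = true := by decide +kernel
theorem ct_283500 : recRange B RT TT M 283500 1500 = true := by decide +kernel
theorem ct_285000 : recRange B RT TT M 285000 1500 = true := by decide +kernel
theorem ct_286500 : recRange B RT TT M 286500 1500 = true := by decide +kernel
theorem ct_288000 : recRange B RT TT M 288000 1500 = true := by decide +kernel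
theorem ct_289500 : recRange B RT TT M 289500 1500 = true := by decide +kernel
theorem ct_291000 : recRange B RT TT M 291000 1500 = true := by decide +kernel
theorem ct_292500 : recRange B RT TT M 292500 1500 = true := by decide +kernel
theorem ct_294000 : recRange B RT TT M 294000 1500 = true := by decide +kernel
theorem ct_295500 : recRange B RT TT M 295500 1500 = true := by decide +kernel
theorem ct_297000 : recRange B RT TT M 297000 1500 = true := by decide +kernel
theorem ct_298500 : recRange B RT TT M 298500 1500 = true := by decide +kernel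

theorem cts_4 : ∀ i, 240000 ≤ i → i < 300000 → recOK B (rOf RT M) (cjOf RT M) TT.find i = true :=
  range_glue (range_glue (range_glue (range_glue (range_glue ((recRange_spec ct_240000 : ∀ i, 240000 ≤ i → i < 241500 → recOK B (rOf RT M) (cjOf RT M) TT.find i = true)) ((recRange_spec ct_241500 : ∀ i, 241500 ≤ i → i < 243000 → recOK B (rOf RT M) (cjOf RT M) TT.find i = true))) (range_glue ((recRange_spec ct_243000 : ∀ i, 243000 ≤ i → i < 244500 → recOK B (rOf RT M) (cjOf RT M) TT.find i = true)) (range_glue ((recRange_spec ct_244500 : ∀ i, 244500 ≤ i → i < 246000 → recOK B (rOf RT M) (cjOf RT M) TT.find i = true)) ((recRange_spec ct_246000 : ∀ i, 246000 ≤ i → i < 247500 → recOK B (rOf RT M) (cjOf RT M) TT.find i = true))))) (range_glue (range_glue ((recRange_spec ct_247500 : ∀ i, 247500 ≤ i → i < 249000 → recOK B (rOf RT M) (cjOf RT M) TT.find i = true)) ((recRange_spec ct_249000 : ∀ i, 249000 ≤ i → i < 250500 → recOK B (rOf RT M) (cjOf RT M) TT.find i = true))) (range_glue ((recRange_spec ct_250500 : ∀ i, 250500 ≤ i → i < 252000 → recOK B (rOf RT M) (cjOf RT M) TT.find i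 = true)) (range_glue ((recRange_spec ct_252000 : ∀ i, 252000 ≤ i → i < 253500 → recOK B (rOf RT M) (cjOf RT M) TT.find i = true)) ((recRange_spec ct_253500 : ∀ i, 253500 ≤ i → i < 255000 → recOK B (rOf RT M) (cjOf RT M) TT.find i = true)))))) (range_glue (range_glue (range_glue ((recRange_spec ct_255000 : ∀ i, 255000 ≤ i → i < 256500 → recOK B (rOf RT M) (cjOf RT M) TT.find i = true)) ((recRange_spec ct_256500 : ∀ i, 256500 ≤ i → i < 258000 → recOK B (rOf RT M) (cjOf RT M) TT.find i = true))) (range_glue ((recRange_spec ct_258000 : ∀ i, 258000 ≤ i → i < 259500 → recOK B (rOf RT M) (cjOf RT M) TT.find i = true)) (range_glue ((recRange_spec ct_259500 : ∀ i, 259500 ≤ i → i < 261000 → recOK B (rOf RT M) (cjOf RT M) TT.find i = true)) ((recRange_spec ct_261000 : ∀ i, 261000 ≤ i → i < 262500 → recOK B (rOf RT M) (cjOf RT M) TT.find i = true))))) (range_glue (range_glue ((recRange_spec ct_262500 : ∀ i, 262500 ≤ i → i < 264000 → recOK B (rOf RT M) (cjOf RT M) TT.find i = true)) ((recRange_spec ct_264000 : ∀ i, 264000 ≤ i → i < 265500 → recOK B (rOf RT M) (cjOf RT M) TT.find i =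 true))) (range_glue ((recRange_spec ct_265500 : ∀ i, 265500 ≤ i → i < 267000 → recOK B (rOf RT M) (cjOf RT M) TT.find i = true)) (range_glue ((recRange_spec ct_267000 : ∀ i, 267000 ≤ i → i < 268500 → recOK B (rOf RT M) (cjOf RT M) TT.find i = true)) ((recRange_spec ct_268500 : ∀ i, 268500 ≤ i → i < 270000 → recOK B (rOf RT M) (cjOf RT M) TT.find i = true))))))) (range_glue (range_glue (range_glue (range_glue ((recRange_spec ct_270000 : ∀ i, 270000 ≤ i → i < 271500 → recOK B (rOf RT M) (cjOf RT M) TT.find i = true)) ((recRange_spec ct_271500 : ∀ i, 271500 ≤ i → i < 273000 → recOK B (rOf RT M) (cjOf RT M) TT.find i = true))) (range_glue ((recRange_spec ct_273000 : ∀ i, 273000 ≤ i → i < 274500 → recOK B (rOf RT M) (cjOf RT M) TT.find i = true)) (range_glue ((recRange_spec ct_274500 : ∀ i, 274500 ≤ i → i < 276000 → recOK B (rOf RT M) (cjOf RT M) TT.find i = true)) ((recRange_spec ct_276000 : ∀ i, 276000 ≤ i → i < 277500 → recOK B (rOf RT M) (cjOf RT M) TT.find i = true))))) (range_glue (range_glue ((recRange_spec ct_277500 : ∀ i, 277500 ≤ i → i < 279000 → recOK B (rOf RT M)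 (cjOf RT M) TT.find i = true)) ((recRange_spec ct_279000 : ∀ i, 279000 ≤ i → i < 280500 → recOK B (rOf RT M) (cjOf RT M) TT.find i = true))) (range_glue ((recRange_spec ct_280500 : ∀ i, 280500 ≤ i → i < 282000 → recOK B (rOf RT M) (cjOf RT M) TT.find i = true)) (range_glue ((recRange_spec ct_282000 : ∀ i, 282000 ≤ i → i < 283500 → recOK B (rOf RT M) (cjOf RT M) TT.find i = true)) ((recRange_spec ct_283500 : ∀ i, 283500 ≤ i → i < 285000 → recOK B (rOf RT M) (cjOf RT M) TT.find i = true)))))) (range_glue (range_glue (range_glue ((recRange_spec ct_285000 : ∀ i, 285000 ≤ i → i < 286500 → recOK B (rOf RT M) (cjOf RT M) TT.find i = true)) ((recRange_spec ct_286500 : ∀ i, 286500 ≤ i → i < 288000 → recOK B (rOf RT M) (cjOf RT M) TT.find i = true))) (range_glue ((recRange_spec ct_288000 : ∀ i, 288000 ≤ i → i < 289500 → recOK B (rOf RT M) (cjOf RT M) TT.find i = true)) (range_glue ((recRange_spec ct_289500 : ∀ i, 289500 ≤ i → i < 291000 → recOK B (rOf RT M) (cjOf RT M) TT.find i = true)) ((recRange_spec ct_291000 : ∀ i, 291000 ≤ i → i < 292500 → recOK B (rOf RT M) (cjOf RT M) TT.find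 i = true))))) (range_glue (range_glue ((recRange_spec ct_292500 : ∀ i, 292500 ≤ i → i < 294000 → recOK B (rOf RT M) (cjOf RT M) TT.find i = true)) ((recRange_spec ct_294000 : ∀ i, 294000 ≤ i → i < 295500 → recOK B (rOf RT M) (cjOf RT M) TT.find i = true))) (range_glue ((recRange_spec ct_295500 : ∀ i, 295500 ≤ i → i < 297000 → recOK B (rOf RT M) (cjOf RT M) TT.find i = true)) (range_glue ((recRange_spec ct_297000 : ∀ i, 297000 ≤ i → i < 298500 → recOK B (rOf RT M) (cjOf RT M) TT.find i = true)) ((recRange_spec ct_298500 : ∀ i, 298500 ≤ i → i < 300000 → recOK B (rOf RT M) (cjOf RT M) TT.find i = true)))))))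

end Crest.Agent.Lib.Saxl.Tb.G
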