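import Crest.Agent.Lib.Saxl.Tb.G.Table

set_option autoImplicit false
set_option Elab.async false

namespace Crest.Agent.Lib.Saxl.Tb.G

open Crest.Agent.Lib.Saxl Crest.Agent.Lib.Saxl.Tb

theorem ct_300000 : recRange B RT TT M 300000 1500 = true := by decide +kernel
theorem ct_301500 : recRange B RT TT M 301500 1500 = true := by decide +kernel
theorem ct_303000 : recRange B RT TT M 303000 1500 = true := by decide +kernel
theorem ct_304500 : recRange B RT TT M 304500 1500 = true := by decide +kernel
theorem ct_306000 : recRange B RT TT M 306000 1500 = true := by decide +kernel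
theorem ct_307500 : recRange B RT TT M 307500 1500 = true := by decide +kernel
theorem ct_309000 : recRange B RT TT M 309000 1500 = true := by decide +kernel
theorem ct_310500 : recRange B RT TT M 310500 1500 = true := by decide +kernel
theorem ct_312000 : recRange B RT TT M 312000 1500 = true := by decide +kernel
theorem ct_313500 : recRange B RT TT M 313500 1500 = true := by decide +kernel
theorem ct_315000 : recRange B RT TT M 315000 1500 = true := by decide +kernel
theorem ct_316500 : recRange B RT TT M 316500 1500 = true := by decide +kernel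
theorem ct_318000 : recRange B RT TT M 318000 1500 = true := by decide +kernel
theorem ct_319500 : recRange B RT TT M 319500 1500 = true := by decide +kernel
theorem ct_321000 : recRange B RT TT M 321000 1500 = true := by decide +kernel
theorem ct_322500 : recRange B RT TT M 322500 1500 = true := by decide +kernel
theorem ct_324000 : recRange B RT TT M 324000 1500 = true := by decide +kernel
theorem ct_325500 : recRange B RT TT M 325500 1500 = true := by decide +kernel
theorem ct_327000 : recRange B RT TT M 327000 1500 = true := by decide +kernel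
theorem ct_328500 : recRange B RT TT M 328500 1500 = true := by decide +kernel
theorem ct_330000 : recRange B RT TT M 330000 1500 = true := by decide +kernel
theorem ct_331500 : recRange B RT TT M 331500 1500 = true := by decide +kernel
theorem ct_333000 : recRange B RT TT M 333000 1500 = true := by decide +kernel
theorem ct_334500 : recRange B RT TT M 334500 1500 = true := by decide +kernel
theorem ct_336000 : recRange B RT TT M 336000 1500 = true := by decide +kernel
theorem ct_337500 : recRange B RT TT M 337500 1500 = true := by decide +kernel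
theorem ct_339000 : recRange B RT TT M 339000 1500 = true := by decide +kernel
theorem ct_340500 : recRange B RT TT M 340500 1500 = true := by decide +kernel
theorem ct_342000 : recRange B RT TT M 342000 1500 = true := by decide +kernel
theorem ct_343500 : recRange B RT TT M 343500 1500 = true := by decide +kernel
theorem ct_345000 : recRange B RT TT M 345000 1500 = true := by decide +kernel
theorem ct_346500 : recRange B RT TT M 346500 1500 = true := by decide +kernel
theorem ct_348000 : recRange B RT TT M 348000 1500 = true := by decide +kernel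
theorem ct_349500 : recRange B RT TT M 349500 1500 = true := by decide +kernel
theorem ct_351000 : recRange B RT TT M 351000 1500 = true := by decide +kernel
theorem ct_352500 : recRange B RT TT M 352500 1500 = true := by decide +kernel
theorem ct_354000 : recRange B RT TT M 354000 1500 = true := by decide +kernel
theorem ct_355500 : recRange B RT TT M 355500 1500 = true := by decide +kernel
theorem ct_357000 : recRange B RT TT M 357000 1500 = true := by decide +kernel
theorem ct_358500 : recRange B RT TT M 358500 1500 = true := by decide +kernel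

theorem cts_5 : ∀ i, 300000 ≤ i → i < 360000 → recOK B (rOf RT M) (cjOf RT M) TT.find i = true :=
  range_glue (range_glue (range_glue (range_glue (range_glue ((recRange_spec ct_300000 : ∀ i, 300000 ≤ i → i < 301500 → recOK B (rOf RT M) (cjOf RT M) TT.find i = true)) ((recRange_spec ct_301500 : ∀ i, 301500 ≤ i → i < 303000 → recOK B (rOf RT M) (cjOf RT M) TT.find i = true))) (range_glue ((recRange_spec ct_303000 : ∀ i, 303000 ≤ i → i < 304500 → recOK B (rOf RT M) (cjOf RT M) TT.find i = true)) (range_glue ((recRange_spec ct_304500 : ∀ i, 304500 ≤ i → i < 306000 → recOK B (rOf RT M) (cjOf RT M) TT.find i = true)) ((recRange_spec ct_306000 : ∀ i, 306000 ≤ i → i < 307500 → recOK B (rOf RT M) (cjOf RT M) TT.find i = true))))) (range_glue (range_glue ((recRange_spec ct_307500 : ∀ i, 307500 ≤ i → i < 309000 → recOK B (rOf RT M) (cjOf RT M) TT.find i = true)) ((recRange_spec ct_309000 : ∀ i, 309000 ≤ i → i < 310500 → recOK B (rOf RT M) (cjOf RT M) TT.find i = true))) (range_glue ((recRange_spec ct_310500 : ∀ i, 310500 ≤ i → i < 312000 → recOK B (rOf RT M) (cjOf RT M) TT.find i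 = true)) (range_glue ((recRange_spec ct_312000 : ∀ i, 312000 ≤ i → i < 313500 → recOK B (rOf RT M) (cjOf RT M) TT.find i = true)) ((recRange_spec ct_313500 : ∀ i, 313500 ≤ i → i < 315000 → recOK B (rOf RT M) (cjOf RT M) TT.find i = true)))))) (range_glue (range_glue (range_glue ((recRange_spec ct_315000 : ∀ i, 315000 ≤ i → i < 316500 → recOK B (rOf RT M) (cjOf RT M) TT.find i = true)) ((recRange_spec ct_316500 : ∀ i, 316500 ≤ i → i < 318000 → recOK B (rOf RT M) (cjOf RT M) TT.find i = true))) (range_glue ((recRange_spec ct_318000 : ∀ i, 318000 ≤ i → i < 319500 → recOK B (rOf RT M) (cjOf RT M) TT.find i = true)) (range_glue ((recRange_spec ct_319500 : ∀ i, 319500 ≤ i → i < 321000 → recOK B (rOf RT M) (cjOf RT M) TT.find i = true)) ((recRange_spec ct_321000 : ∀ i, 321000 ≤ i → i < 322500 → recOK B (rOf RT M) (cjOf RT M) TT.find i = true))))) (range_glue (range_glue ((recRange_spec ct_322500 : ∀ i, 322500 ≤ i → i < 324000 → recOK B (rOf RT M) (cjOf RT M) TT.find i = true)) ((recRange_spec ct_324000 : ∀ i, 324000 ≤ i → i < 325500 → recOK B (rOf RT M) (cjOf RT M) TT.find i =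 true))) (range_glue ((recRange_spec ct_325500 : ∀ i, 325500 ≤ i → i < 327000 → recOK B (rOf RT M) (cjOf RT M) TT.find i = true)) (range_glue ((recRange_spec ct_327000 : ∀ i, 327000 ≤ i → i < 328500 → recOK B (rOf RT M) (cjOf RT M) TT.find i = true)) ((recRange_spec ct_328500 : ∀ i, 328500 ≤ i → i < 330000 → recOK B (rOf RT M) (cjOf RT M) TT.find i = true))))))) (range_glue (range_glue (range_glue (range_glue ((recRange_spec ct_330000 : ∀ i, 330000 ≤ i → i < 331500 → recOK B (rOf RT M) (cjOf RT M) TT.find i = true)) ((recRange_spec ct_331500 : ∀ i, 331500 ≤ i → i < 333000 → recOK B (rOf RT M) (cjOf RT M) TT.find i = true))) (range_glue ((recRange_spec ct_333000 : ∀ i, 333000 ≤ i → i < 334500 → recOK B (rOf RT M) (cjOf RT M) TT.find i = true)) (range_glue ((recRange_spec ct_334500 : ∀ i, 334500 ≤ i → i < 336000 → recOK B (rOf RT M) (cjOf RT M) TT.find i = true)) ((recRange_spec ct_336000 : ∀ i, 336000 ≤ i → i < 337500 → recOK B (rOf RT M) (cjOf RT M) TT.find i = true))))) (range_glue (range_glue ((recRange_spec ct_337500 : ∀ i, 337500 ≤ i → i < 339000 → recOK B (rOf RT M)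 (cjOf RT M) TT.find i = true)) ((recRange_spec ct_339000 : ∀ i, 339000 ≤ i → i < 340500 → recOK B (rOf RT M) (cjOf RT M) TT.find i = true))) (range_glue ((recRange_spec ct_340500 : ∀ i, 340500 ≤ i → i < 342000 → recOK B (rOf RT M) (cjOf RT M) TT.find i = true)) (range_glue ((recRange_spec ct_342000 : ∀ i, 342000 ≤ i → i < 343500 → recOK B (rOf RT M) (cjOf RT M) TT.find i = true)) ((recRange_spec ct_343500 : ∀ i, 343500 ≤ i → i < 345000 → recOK B (rOf RT M) (cjOf RT M) TT.find i = true)))))) (range_glue (range_glue (range_glue ((recRange_spec ct_345000 : ∀ i, 345000 ≤ i → i < 346500 → recOK B (rOf RT M) (cjOf RT M) TT.find i = true)) ((recRange_spec ct_346500 : ∀ i, 346500 ≤ i → i < 348000 → recOK B (rOf RT M) (cjOf RT M) TT.find i = true))) (range_glue ((recRange_spec ct_348000 : ∀ i, 348000 ≤ i → i < 349500 → recOK B (rOf RT M) (cjOf RT M) TT.find i = true)) (range_glue ((recRange_spec ct_349500 : ∀ i, 349500 ≤ i → i < 351000 → recOK B (rOf RT M) (cjOf RT M) TT.find i = true)) ((recRange_spec ct_351000 : ∀ i, 351000 ≤ i → i < 352500 → recOK B (rOf RT M) (cjOf RT M) TT.find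 i = true))))) (range_glue (range_glue ((recRange_spec ct_352500 : ∀ i, 352500 ≤ i → i < 354000 → recOK B (rOf RT M) (cjOf RT M) TT.find i = true)) ((recRange_spec ct_354000 : ∀ i, 354000 ≤ i → i < 355500 → recOK B (rOf RT M) (cjOf RT M) TT.find i = true))) (range_glue ((recRange_spec ct_355500 : ∀ i, 355500 ≤ i → i < 357000 → recOK B (rOf RT M) (cjOf RT M) TT.find i = true)) (range_glue ((recRange_spec ct_357000 : ∀ i, 357000 ≤ i → i < 358500 → recOK B (rOf RT M) (cjOf RT M) TT.find i = true)) ((recRange_spec ct_358500 : ∀ i, 358500 ≤ i → i < 360000 → recOK B (rOf RT M) (cjOf RT M) TT.find i = true)))))))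

end Crest.Agent.Lib.Saxl.Tb.G
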