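import Crest.Agent.Lib.Saxl.Tb.G.Table

set_option autoImplicit false
set_option Elab.async false

namespace Crest.Agent.Lib.Saxl.Tb.G

open Crest.Agent.Lib.Saxl Crest.Agent.Lib.Saxl.Tb

theorem ct_360000 : recRange B RT TT M 360000 1500 = true := by decide +kernel
theorem ct_361500 : recRange B RT TT M 361500 1500 = true := by decide +kernel
theorem ct_363000 : recRange B RT TT M 363000 1500 = true := by decide +kernel
theorem ct_364500 : recRange B RT TT M 364500 1500 = true := by decide +kernel
theorem ct_366000 : recRange B RT TT M 366000 1500 = true := by decide +kernel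
theorem ct_367500 : recRange B RT TT M 367500 1500 = true := by decide +kernel
theorem ct_369000 : recRange B RT TT M 369000 1500 = true := by decide +kernel
theorem ct_370500 : recRange B RT TT M 370500 1500 = true := by decide +kernel
theorem ct_372000 : recRange B RT TT M 372000 1500 = true := by decide +kernel
theorem ct_373500 : recRange B RT TT M 373500 1500 = true := by decide +kernel
theorem ct_375000 : recRange B RT TT M 375000 1500 = true := by decide +kernel
theorem ct_376500 : recRange B RT TT M 376500 1500 = true := by decide +kernel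
theorem ct_378000 : recRange B RT TT M 378000 1500 = true := by decide +kernel
theorem ct_379500 : recRange B RT TT M 379500 1500 = true := by decide +kernel
theorem ct_381000 : recRange B RT TT M 381000 1500 = true := by decide +kernel
theorem ct_382500 : recRange B RT TT M 382500 1500 = true := by decide +kernel
theorem ct_384000 : recRange B RT TT M 384000 1500 = true := by decide +kernel
theorem ct_385500 : recRange B RT TT M 385500 1500 = true := by decide +kernel
theorem ct_387000 : recRange B RT TT M 387000 1500 = true := by decide +kernel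
theorem ct_388500 : recRange B RT TT M 388500 1500 = true := by decide +kernel
theorem ct_390000 : recRange B RT TT M 390000 1500 = true := by decide +kernel
theorem ct_391500 : recRange B RT TT M 391500 1500 = true := by decide +kernel
theorem ct_393000 : recRange B RT TT M 393000 1500 = true := by decide +kernel
theorem ct_394500 : recRange B RT TT M 394500 1500 = true := by decide +kernel
theorem ct_396000 : recRange B RT TT M 396000 1500 = true := by decide +kernel
theorem ct_397500 : recRange B RT TT M 397500 1500 = true := by decide +kernel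
theorem ct_399000 : recRange B RT TT M 399000 1500 = true := by decide +kernel
theorem ct_400500 : recRange B RT TT M 400500 1500 = true := by decide +kernel
theorem ct_402000 : recRange B RT TT M 402000 1500 = true := by decide +kernel
theorem ct_403500 : recRange B RT TT M 403500 1500 = true := by decide +kernel
theorem ct_405000 : recRange B RT TT M 405000 1500 = true := by decide +kernel
theorem ct_406500 : recRange B RT TT M 406500 1500 = true := by decide +kernel
theorem ct_408000 : recRange B RT TT M 408000 1500 = true := by decide +kernel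
theorem ct_409500 : recRange B RT TT M 409500 1500 = true := by decide +kernel
theorem ct_411000 : recRange B RT TT M 411000 1500 = true := by decide +kernel
theorem ct_412500 : recRange B RT TT M 412500 1500 = true := by decide +kernel
theorem ct_414000 : recRange B RT TT M 414000 1500 = true := by decide +kernel
theorem ct_415500 : recRange B RT TT M 415500 1500 = true := by decide +kernel
theorem ct_417000 : recRange B RT TT M 417000 1500 = true := by decide +kernel
theorem ct_418500 : recRange B RT TT M 418500 1500 = true := by decide +kernel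

theorem cts_6 : ∀ i, 360000 ≤ i → i < 420000 → recOK B (rOf RT M) (cjOf RT M) TT.find i = true :=
  range_glue (range_glue (range_glue (range_glue (range_glue ((recRange_spec ct_360000 : ∀ i, 360000 ≤ i → i < 361500 → recOK B (rOf RT M) (cjOf RT M) TT.find i = true)) ((recRange_spec ct_361500 : ∀ i, 361500 ≤ i → i < 363000 → recOK B (rOf RT M) (cjOf RT M) TT.find i = true))) (range_glue ((recRange_spec ct_363000 : ∀ i, 363000 ≤ i → i < 364500 → recOK B (rOf RT M) (cjOf RT M) TT.find i = true)) (range_glue ((recRange_spec ct_364500 : ∀ i, 364500 ≤ i → i < 366000 → recOK B (rOf RT M) (cjOf RT M) TT.find i = true)) ((recRange_spec ct_366000 : ∀ i, 366000 ≤ i → i < 367500 → recOK B (rOf RT M) (cjOf RT M) TT.find i = true))))) (range_glue (range_glue ((recRange_spec ct_367500 : ∀ i, 367500 ≤ i → i < 369000 → recOK B (rOf RT M) (cjOf RT M) TT.find i = true)) ((recRange_spec ct_369000 : ∀ i, 369000 ≤ i → i < 370500 → recOK B (rOf RT M) (cjOf RT M) TT.find i = true))) (range_glue ((recRange_spec ct_370500 : ∀ i, 370500 ≤ i → i < 372000 → recOK B (rOf RT M) (cjOf RT M) TT.find i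 = true)) (range_glue ((recRange_spec ct_372000 : ∀ i, 372000 ≤ i → i < 373500 → recOK B (rOf RT M) (cjOf RT M) TT.find i = true)) ((recRange_spec ct_373500 : ∀ i, 373500 ≤ i → i < 375000 → recOK B (rOf RT M) (cjOf RT M) TT.find i = true)))))) (range_glue (range_glue (range_glue ((recRange_spec ct_375000 : ∀ i, 375000 ≤ i → i < 376500 → recOK B (rOf RT M) (cjOf RT M) TT.find i = true)) ((recRange_spec ct_376500 : ∀ i, 376500 ≤ i → i < 378000 → recOK B (rOf RT M) (cjOf RT M) TT.find i = true))) (range_glue ((recRange_spec ct_378000 : ∀ i, 378000 ≤ i → i < 379500 → recOK B (rOf RT M) (cjOf RT M) TT.find i = true)) (range_glue ((recRange_spec ct_379500 : ∀ i, 379500 ≤ i → i < 381000 → recOK B (rOf RT M) (cjOf RT M) TT.find i = true)) ((recRange_spec ct_381000 : ∀ i, 381000 ≤ i → i < 382500 → recOK B (rOf RT M) (cjOf RT M) TT.find i = true))))) (range_glue (range_glue ((recRange_spec ct_382500 : ∀ i, 382500 ≤ i → i < 384000 → recOK B (rOf RT M) (cjOf RT M) TT.find i = true)) ((recRange_spec ct_384000 : ∀ i, 384000 ≤ i → i < 385500 → recOK B (rOf RT M) (cjOf RT M) TT.find i =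 true))) (range_glue ((recRange_spec ct_385500 : ∀ i, 385500 ≤ i → i < 387000 → recOK B (rOf RT M) (cjOf RT M) TT.find i = true)) (range_glue ((recRange_spec ct_387000 : ∀ i, 387000 ≤ i → i < 388500 → recOK B (rOf RT M) (cjOf RT M) TT.find i = true)) ((recRange_spec ct_388500 : ∀ i, 388500 ≤ i → i < 390000 → recOK B (rOf RT M) (cjOf RT M) TT.find i = true))))))) (range_glue (range_glue (range_glue (range_glue ((recRange_spec ct_390000 : ∀ i, 390000 ≤ i → i < 391500 → recOK B (rOf RT M) (cjOf RT M) TT.find i = true)) ((recRange_spec ct_391500 : ∀ i, 391500 ≤ i → i < 393000 → recOK B (rOf RT M) (cjOf RT M) TT.find i = true))) (range_glue ((recRange_spec ct_393000 : ∀ i, 393000 ≤ i → i < 394500 → recOK B (rOf RT M) (cjOf RT M) TT.find i = true)) (range_glue ((recRange_spec ct_394500 : ∀ i, 394500 ≤ i → i < 396000 → recOK B (rOf RT M) (cjOf RT M) TT.find i = true)) ((recRange_spec ct_396000 : ∀ i, 396000 ≤ i → i < 397500 → recOK B (rOf RT M) (cjOf RT M) TT.find i = true))))) (range_glue (range_glue ((recRange_spec ct_397500 : ∀ i, 397500 ≤ i → i < 399000 → recOK B (rOf RT M)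 (cjOf RT M) TT.find i = true)) ((recRange_spec ct_399000 : ∀ i, 399000 ≤ i → i < 400500 → recOK B (rOf RT M) (cjOf RT M) TT.find i = true))) (range_glue ((recRange_spec ct_400500 : ∀ i, 400500 ≤ i → i < 402000 → recOK B (rOf RT M) (cjOf RT M) TT.find i = true)) (range_glue ((recRange_spec ct_402000 : ∀ i, 402000 ≤ i → i < 403500 → recOK B (rOf RT M) (cjOf RT M) TT.find i = true)) ((recRange_spec ct_403500 : ∀ i, 403500 ≤ i → i < 405000 → recOK B (rOf RT M) (cjOf RT M) TT.find i = true)))))) (range_glue (range_glue (range_glue ((recRange_spec ct_405000 : ∀ i, 405000 ≤ i → i < 406500 → recOK B (rOf RT M) (cjOf RT M) TT.find i = true)) ((recRange_spec ct_406500 : ∀ i, 406500 ≤ i → i < 408000 → recOK B (rOf RT M) (cjOf RT M) TT.find i = true))) (range_glue ((recRange_spec ct_408000 : ∀ i, 408000 ≤ i → i < 409500 → recOK B (rOf RT M) (cjOf RT M) TT.find i = true)) (range_glue ((recRange_spec ct_409500 : ∀ i, 409500 ≤ i → i < 411000 → recOK B (rOf RT M) (cjOf RT M) TT.find i = true)) ((recRange_spec ct_411000 : ∀ i, 411000 ≤ i → i < 412500 → recOK B (rOf RT M) (cjOf RT M) TT.find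 i = true))))) (range_glue (range_glue ((recRange_spec ct_412500 : ∀ i, 412500 ≤ i → i < 414000 → recOK B (rOf RT M) (cjOf RT M) TT.find i = true)) ((recRange_spec ct_414000 : ∀ i, 414000 ≤ i → i < 415500 → recOK B (rOf RT M) (cjOf RT M) TT.find i = true))) (range_glue ((recRange_spec ct_415500 : ∀ i, 415500 ≤ i → i < 417000 → recOK B (rOf RT M) (cjOf RT M) TT.find i = true)) (range_glue ((recRange_spec ct_417000 : ∀ i, 417000 ≤ i → i < 418500 → recOK B (rOf RT M) (cjOf RT M) TT.find i = true)) ((recRange_spec ct_418500 : ∀ i, 418500 ≤ i → i < 420000 → recOK B (rOf RT M) (cjOf RT M) TT.find i = true)))))))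

end Crest.Agent.Lib.Saxl.Tb.G
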