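import Crest.Agent.Lib.Saxl.Tb.G.Table

set_option autoImplicit false
set_option Elab.async false

namespace Crest.Agent.Lib.Saxl.Tb.G

open Crest.Agent.Lib.Saxl Crest.Agent.Lib.Saxl.Tb

theorem ct_420000 : recRange B RT TT M 420000 1500 = true := by decide +kernel
theorem ct_421500 : recRange B RT TT M 421500 1500 = true := by decide +kernel
theorem ct_423000 : recRange B RT TT M 423000 1500 = true := by decide +kernel
theorem ct_424500 : recRange B RT TT M 424500 1500 = true := by decide +kernel
theorem ct_426000 : recRange B RT TT M 426000 1500 = true := by decide +kernel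
theorem ct_427500 : recRange B RT TT M 427500 1500 = true := by decide +kernel
theorem ct_429000 : recRange B RT TT M 429000 1500 = true := by decide +kernel
theorem ct_430500 : recRange B RT TT M 430500 1500 = true := by decide +kernel
theorem ct_432000 : recRange B RT TT M 432000 1500 = true := by decide +kernel
theorem ct_433500 : recRange B RT TT M 433500 1500 = true := by decide +kernel
theorem ct_435000 : recRange B RT TT M 435000 1500 = true := by decide +kernel
theorem ct_436500 : recRange B RT TT M 436500 1500 = true := by decide +kernel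
theorem ct_438000 : recRange B RT TT M 438000 1500 = true := by decide +kernel
theorem ct_439500 : recRange B RT TT M 439500 1500 = true := by decide +kernel
theorem ct_441000 : recRange B RT TT M 441000 1500 = true := by decide +kernel
theorem ct_442500 : recRange B RT TT M 442500 1500 = true := by decide +kernel
theorem ct_444000 : recRange B RT TT M 444000 1500 = true := by decide +kernel
theorem ct_445500 : recRange B RT TT M 445500 1500 = true := by decide +kernel
theorem ct_447000 : recRange B RT TT M 447000 1500 = true := by decide +kernel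
theorem ct_448500 : recRange B RT TT M 448500 1500 = true := by decide +kernel
theorem ct_450000 : recRange B RT TT M 450000 1500 = true := by decide +kernel
theorem ct_451500 : recRange B RT TT M 451500 1500 = true := by decide +kernel
theorem ct_453000 : recRange B RT TT M 453000 1500 = true := by decide +kernel
theorem ct_454500 : recRange B RT TT M 454500 1500 = true := by decide +kernel
theorem ct_456000 : recRange B RT TT M 456000 1500 = true := by decide +kernel
theorem ct_457500 : recRange B RT TT M 457500 1500 = true := by decide +kernel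
theorem ct_459000 : recRange B RT TT M 459000 1500 = true := by decide +kernel
theorem ct_460500 : recRange B RT TT M 460500 1500 = true := by decide +kernel
theorem ct_462000 : recRange B RT TT M 462000 1500 = true := by decide +kernel
theorem ct_463500 : recRange B RT TT M 463500 1500 = true := by decide +kernel
theorem ct_465000 : recRange B RT TT M 465000 1500 = true := by decide +kernel
theorem ct_466500 : recRange B RT TT M 466500 1500 = true := by decide +kernel
theorem ct_468000 : recRange B RT TT M 468000 1500 = true := by decide +kernel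
theorem ct_469500 : recRange B RT TT M 469500 1500 = true := by decide +kernel
theorem ct_471000 : recRange B RT TT M 471000 1500 = true := by decide +kernel
theorem ct_472500 : recRange B RT TT M 472500 1500 = true := by decide +kernel
theorem ct_474000 : recRange B RT TT M 474000 1500 = true := by decide +kernel
theorem ct_475500 : recRange B RT TT M 475500 1500 = true := by decide +kernel
theorem ct_477000 : recRange B RT TT M 477000 1500 = true := by decide +kernel
theorem ct_478500 : recRange B RT TT M 478500 1500 = true := by decide +kernel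

theorem cts_7 : ∀ i, 420000 ≤ i → i < 480000 → recOK B (rOf RT M) (cjOf RT M) TT.find i = true :=
  range_glue (range_glue (range_glue (range_glue (range_glue ((recRange_spec ct_420000 : ∀ i, 420000 ≤ i → i < 421500 → recOK B (rOf RT M) (cjOf RT M) TT.find i = true)) ((recRange_spec ct_421500 : ∀ i, 421500 ≤ i → i < 423000 → recOK B (rOf RT M) (cjOf RT M) TT.find i = true))) (range_glue ((recRange_spec ct_423000 : ∀ i, 423000 ≤ i → i < 424500 → recOK B (rOf RT M) (cjOf RT M) TT.find i = true)) (range_glue ((recRange_spec ct_424500 : ∀ i, 424500 ≤ i → i < 426000 → recOK B (rOf RT M) (cjOf RT M) TT.find i = true)) ((recRange_spec ct_426000 : ∀ i, 426000 ≤ i → i < 427500 → recOK B (rOf RT M) (cjOf RT M) TT.find i = true))))) (range_glue (range_glue ((recRange_spec ct_427500 : ∀ i, 427500 ≤ i → i < 429000 → recOK B (rOf RT M) (cjOf RT M) TT.find i = true)) ((recRange_spec ct_429000 : ∀ i, 429000 ≤ i → i < 430500 → recOK B (rOf RT M) (cjOf RT M) TT.find i = true))) (range_glue ((recRange_spec ct_430500 : ∀ i, 430500 ≤ i → i < 432000 → recOK B (rOf RT M) (cjOf RT M) TT.find i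 = true)) (range_glue ((recRange_spec ct_432000 : ∀ i, 432000 ≤ i → i < 433500 → recOK B (rOf RT M) (cjOf RT M) TT.find i = true)) ((recRange_spec ct_433500 : ∀ i, 433500 ≤ i → i < 435000 → recOK B (rOf RT M) (cjOf RT M) TT.find i = true)))))) (range_glue (range_glue (range_glue ((recRange_spec ct_435000 : ∀ i, 435000 ≤ i → i < 436500 → recOK B (rOf RT M) (cjOf RT M) TT.find i = true)) ((recRange_spec ct_436500 : ∀ i, 436500 ≤ i → i < 438000 → recOK B (rOf RT M) (cjOf RT M) TT.find i = true))) (range_glue ((recRange_spec ct_438000 : ∀ i, 438000 ≤ i → i < 439500 → recOK B (rOf RT M) (cjOf RT M) TT.find i = true)) (range_glue ((recRange_spec ct_439500 : ∀ i, 439500 ≤ i → i < 441000 → recOK B (rOf RT M) (cjOf RT M) TT.find i = true)) ((recRange_spec ct_441000 : ∀ i, 441000 ≤ i → i < 442500 → recOK B (rOf RT M) (cjOf RT M) TT.find i = true))))) (range_glue (range_glue ((recRange_spec ct_442500 : ∀ i, 442500 ≤ i → i < 444000 → recOK B (rOf RT M) (cjOf RT M) TT.find i = true)) ((recRange_spec ct_444000 : ∀ i, 444000 ≤ i → i < 445500 → recOK B (rOf RT M) (cjOf RT M) TT.find i =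 true))) (range_glue ((recRange_spec ct_445500 : ∀ i, 445500 ≤ i → i < 447000 → recOK B (rOf RT M) (cjOf RT M) TT.find i = true)) (range_glue ((recRange_spec ct_447000 : ∀ i, 447000 ≤ i → i < 448500 → recOK B (rOf RT M) (cjOf RT M) TT.find i = true)) ((recRange_spec ct_448500 : ∀ i, 448500 ≤ i → i < 450000 → recOK B (rOf RT M) (cjOf RT M) TT.find i = true))))))) (range_glue (range_glue (range_glue (range_glue ((recRange_spec ct_450000 : ∀ i, 450000 ≤ i → i < 451500 → recOK B (rOf RT M) (cjOf RT M) TT.find i = true)) ((recRange_spec ct_451500 : ∀ i, 451500 ≤ i → i < 453000 → recOK B (rOf RT M) (cjOf RT M) TT.find i = true))) (range_glue ((recRange_spec ct_453000 : ∀ i, 453000 ≤ i → i < 454500 → recOK B (rOf RT M) (cjOf RT M) TT.find i = true)) (range_glue ((recRange_spec ct_454500 : ∀ i, 454500 ≤ i → i < 456000 → recOK B (rOf RT M) (cjOf RT M) TT.find i = true)) ((recRange_spec ct_456000 : ∀ i, 456000 ≤ i → i < 457500 → recOK B (rOf RT M) (cjOf RT M) TT.find i = true))))) (range_glue (range_glue ((recRange_spec ct_457500 : ∀ i, 457500 ≤ i → i < 459000 → recOK B (rOf RT M)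 (cjOf RT M) TT.find i = true)) ((recRange_spec ct_459000 : ∀ i, 459000 ≤ i → i < 460500 → recOK B (rOf RT M) (cjOf RT M) TT.find i = true))) (range_glue ((recRange_spec ct_460500 : ∀ i, 460500 ≤ i → i < 462000 → recOK B (rOf RT M) (cjOf RT M) TT.find i = true)) (range_glue ((recRange_spec ct_462000 : ∀ i, 462000 ≤ i → i < 463500 → recOK B (rOf RT M) (cjOf RT M) TT.find i = true)) ((recRange_spec ct_463500 : ∀ i, 463500 ≤ i → i < 465000 → recOK B (rOf RT M) (cjOf RT M) TT.find i = true)))))) (range_glue (range_glue (range_glue ((recRange_spec ct_465000 : ∀ i, 465000 ≤ i → i < 466500 → recOK B (rOf RT M) (cjOf RT M) TT.find i = true)) ((recRange_spec ct_466500 : ∀ i, 466500 ≤ i → i < 468000 → recOK B (rOf RT M) (cjOf RT M) TT.find i = true))) (range_glue ((recRange_spec ct_468000 : ∀ i, 468000 ≤ i → i < 469500 → recOK B (rOf RT M) (cjOf RT M) TT.find i = true)) (range_glue ((recRange_spec ct_469500 : ∀ i, 469500 ≤ i → i < 471000 → recOK B (rOf RT M) (cjOf RT M) TT.find i = true)) ((recRange_spec ct_471000 : ∀ i, 471000 ≤ i → i < 472500 → recOK B (rOf RT M) (cjOf RT M) TT.find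 i = true))))) (range_glue (range_glue ((recRange_spec ct_472500 : ∀ i, 472500 ≤ i → i < 474000 → recOK B (rOf RT M) (cjOf RT M) TT.find i = true)) ((recRange_spec ct_474000 : ∀ i, 474000 ≤ i → i < 475500 → recOK B (rOf RT M) (cjOf RT M) TT.find i = true))) (range_glue ((recRange_spec ct_475500 : ∀ i, 475500 ≤ i → i < 477000 → recOK B (rOf RT M) (cjOf RT M) TT.find i = true)) (range_glue ((recRange_spec ct_477000 : ∀ i, 477000 ≤ i → i < 478500 → recOK B (rOf RT M) (cjOf RT M) TT.find i = true)) ((recRange_spec ct_478500 : ∀ i, 478500 ≤ i → i < 480000 → recOK B (rOf RT M) (cjOf RT M) TT.find i = true)))))))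

end Crest.Agent.Lib.Saxl.Tb.G
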