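import Crest.Agent.Lib.Saxl.Tb.G.Table

set_option autoImplicit false
set_option Elab.async false

namespace Crest.Agent.Lib.Saxl.Tb.G

open Crest.Agent.Lib.Saxl Crest.Agent.Lib.Saxl.Tb

theorem ct_480000 : recRange B RT TT M 480000 1500 = true := by decide +kernel
theorem ct_481500 : recRange B RT TT M 481500 1500 = true := by decide +kernel
theorem ct_483000 : recRange B RT TT M 483000 1500 = true := by decide +kernel
theorem ct_484500 : recRange B RT TT M 484500 1500 = true := by decide +kernel
theorem ct_486000 : recRange B RT TT M 486000 1500 = true := by decide +kernel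
theorem ct_487500 : recRange B RT TT M 487500 1500 = true := by decide +kernel
theorem ct_489000 : recRange B RT TT M 489000 1500 = true := by decide +kernel
theorem ct_490500 : recRange B RT TT M 490500 1500 = true := by decide +kernel
theorem ct_492000 : recRange B RT TT M 492000 1500 = true := by decide +kernel
theorem ct_493500 : recRange B RT TT M 493500 1500 = true := by decide +kernel
theorem ct_495000 : recRange B RT TT M 495000 1500 = true := by decide +kernel
theorem ct_496500 : recRange B RT TT M 496500 1500 = true := by decide +kernel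
theorem ct_498000 : recRange B RT TT M 498000 1500 = true := by decide +kernel
theorem ct_499500 : recRange B RT TT M 499500 1500 = true := by decide +kernel
theorem ct_501000 : recRange B RT TT M 501000 1500 = true := by decide +kernel
theorem ct_502500 : recRange B RT TT M 502500 1500 = true := by decide +kernel
theorem ct_504000 : recRange B RT TT M 504000 1500 = true := by decide +kernel
theorem ct_505500 : recRange B RT TT M 505500 1500 = true := by decide +kernel
theorem ct_507000 : recRange B RT TT M 507000 1500 = true := by decide +kernel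
theorem ct_508500 : recRange B RT TT M 508500 1500 = true := by decide +kernel
theorem ct_510000 : recRange B RT TT M 510000 1500 = true := by decide +kernel
theorem ct_511500 : recRange B RT TT M 511500 1500 = true := by decide +kernel
theorem ct_513000 : recRange B RT TT M 513000 1500 = true := by decide +kernel
theorem ct_514500 : recRange B RT TT M 514500 1500 = true := by decide +kernel
theorem ct_516000 : recRange B RT TT M 516000 1500 = true := by decide +kernel
theorem ct_517500 : recRange B RT TT M 517500 1500 = true := by decide +kernel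
theorem ct_519000 : recRange B RT TT M 519000 1500 = true := by decide +kernel
theorem ct_520500 : recRange B RT TT M 520500 1500 = true := by decide +kernel
theorem ct_522000 : recRange B RT TT M 522000 1500 = true := by decide +kernel
theorem ct_523500 : recRange B RT TT M 523500 1500 = true := by decide +kernel
theorem ct_525000 : recRange B RT TT M 525000 1500 = true := by decide +kernel
theorem ct_526500 : recRange B RT TT M 526500 1500 = true := by decide +kernel
theorem ct_528000 : recRange B RT TT M 528000 1500 = true := by decide +kernel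
theorem ct_529500 : recRange B RT TT M 529500 1500 = true := by decide +kernel
theorem ct_531000 : recRange B RT TT M 531000 1500 = true := by decide +kernel
theorem ct_532500 : recRange B RT TT M 532500 1500 = true := by decide +kernel
theorem ct_534000 : recRange B RT TT M 534000 1434 = true := by decide +kernel

theorem cts_8 : ∀ i, 480000 ≤ i → i < 535434 → recOK B (rOf RT M) (cjOf RT M) TT.find i = true :=
  range_glue (range_glue (range_glue (range_glue (range_glue ((recRange_spec ct_480000 : ∀ i, 480000 ≤ i → i < 481500 → recOK B (rOf RT M) (cjOf RT M) TT.find i = true)) ((recRange_spec ct_481500 : ∀ i, 481500 ≤ i → i < 483000 → recOK B (rOf RT M) (cjOf RT M) TT.find i = true))) (range_glue ((recRange_spec ct_483000 : ∀ i, 483000 ≤ i → i < 484500 → recOK B (rOf RT M) (cjOf RT M) TT.find i = true)) ((recRange_spec ct_484500 : ∀ i, 484500 ≤ i → i < 486000 → recOK B (rOf RT M) (cjOf RT M) TT.find i = true)))) (range_glue (range_glue ((recRange_spec ct_486000 : ∀ i, 486000 ≤ i → i < 487500 → recOK B (rOf RT M) (cjOf RT M) TT.find i = true)) ((recRange_spec ct_487500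 : ∀ i, 487500 ≤ i → i < 489000 → recOK B (rOf RT M) (cjOf RT M) TT.find i = true))) (range_glue ((recRange_spec ct_489000 : ∀ i, 489000 ≤ i → i < 490500 → recOK B (rOf RT M) (cjOf RT M) TT.find i = true)) (range_glue ((recRange_spec ct_490500 : ∀ i, 490500 ≤ i → i < 492000 → recOK B (rOf RT M) (cjOf RT M) TT.find i = true)) ((recRange_spec ct_492000 : ∀ i, 492000 ≤ i → i < 493500 → recOK B (rOf RT M) (cjOf RT M) TT.find i = true)))))) (range_glue (range_glue (range_glue ((recRange_spec ct_493500 : ∀ i, 493500 ≤ i → i < 495000 → recOK B (rOf RT M) (cjOf RT M) TT.find i = true)) ((recRange_spec ct_495000 : ∀ i, 495000 ≤ i → i < 496500 → recOK B (rOf RT M) (cjOf RT M) TT.find i = true))) (range_glue ((recRange_spec ct_496500 : ∀ i, 496500 ≤ i → i < 498000 → recOK B (rOf RT M) (cjOf RT M) TT.find i = true)) ((recRange_spec ct_498000 : ∀ i, 498000 ≤ i → i < 499500 → recOK B (rOf RT M) (cjOf RT M) TT.find i = true)))) (range_glue (range_glue ((recRange_spec ct_499500 : ∀ i, 499500 ≤ i → i < 501000 → recOK B (rOf RT M) (cjOf RT M) TT.find i = true)) ((recRange_spec ct_501000 :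 ∀ i, 501000 ≤ i → i < 502500 → recOK B (rOf RT M) (cjOf RT M) TT.find i = true))) (range_glue ((recRange_spec ct_502500 : ∀ i, 502500 ≤ i → i < 504000 → recOK B (rOf RT M) (cjOf RT M) TT.find i = true)) (range_glue ((recRange_spec ct_504000 : ∀ i, 504000 ≤ i → i < 505500 → recOK B (rOf RT M) (cjOf RT M) TT.find i = true)) ((recRange_spec ct_505500 : ∀ i, 505500 ≤ i → i < 507000 → recOK B (rOf RT M) (cjOf RT M) TT.find i = true))))))) (range_glue (range_glue (range_glue (range_glue ((recRange_spec ct_507000 : ∀ i, 507000 ≤ i → i < 508500 → recOK B (rOf RT M) (cjOf RT M) TT.find i = true)) ((recRange_spec ct_508500 : ∀ i, 508500 ≤ i → i < 510000 → recOK B (rOf RT M) (cjOf RT M) TT.find i = true))) (range_glue ((recRange_spec ct_510000 : ∀ i, 510000 ≤ i → i < 511500 → recOK B (rOf RT M) (cjOf RT M) TT.find i = true)) ((recRange_spec ct_511500 : ∀ i, 511500 ≤ i → i < 513000 → recOK B (rOf RT M) (cjOf RT M) TT.find i = true)))) (range_glue (range_glue ((recRange_spec ct_513000 : ∀ i, 513000 ≤ i → i < 514500 → recOK B (rOf RT M) (cjOf RT M) TT.find i = true)) ((recRange_spec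 ct_514500 : ∀ i, 514500 ≤ i → i < 516000 → recOK B (rOf RT M) (cjOf RT M) TT.find i = true))) (range_glue ((recRange_spec ct_516000 : ∀ i, 516000 ≤ i → i < 517500 → recOK B (rOf RT M) (cjOf RT M) TT.find i = true)) (range_glue ((recRange_spec ct_517500 : ∀ i, 517500 ≤ i → i < 519000 → recOK B (rOf RT M) (cjOf RT M) TT.find i = true)) ((recRange_spec ct_519000 : ∀ i, 519000 ≤ i → i < 520500 → recOK B (rOf RT M) (cjOf RT M) TT.find i = true)))))) (range_glue (range_glue (range_glue ((recRange_spec ct_520500 : ∀ i, 520500 ≤ i → i < 522000 → recOK B (rOf RT M) (cjOf RT M) TT.find i = true)) ((recRange_spec ct_522000 : ∀ i, 522000 ≤ i → i < 523500 → recOK B (rOf RT M) (cjOf RT M) TT.find i = true))) (range_glue ((recRange_spec ct_523500 : ∀ i, 523500 ≤ i → i < 525000 → recOK B (rOf RT M) (cjOf RT M) TT.find i = true)) (range_glue ((recRange_spec ct_525000 : ∀ i, 525000 ≤ i → i < 526500 → recOK B (rOf RT M) (cjOf RT M) TT.find i = true)) ((recRange_spec ct_526500 : ∀ i, 526500 ≤ i → i < 528000 → recOK B (rOf RT M) (cjOf RT M) TT.find i = true))))) (range_glue (range_glue ((recRange_spec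 ct_528000 : ∀ i, 528000 ≤ i → i < 529500 → recOK B (rOf RT M) (cjOf RT M) TT.find i = true)) ((recRange_spec ct_529500 : ∀ i, 529500 ≤ i → i < 531000 → recOK B (rOf RT M) (cjOf RT M) TT.find i = true))) (range_glue ((recRange_spec ct_531000 : ∀ i, 531000 ≤ i → i < 532500 → recOK B (rOf RT M) (cjOf RT M) TT.find i = true)) (range_glue ((recRange_spec ct_532500 : ∀ i, 532500 ≤ i → i < 534000 → recOK B (rOf RT M) (cjOf RT M) TT.find i = true)) ((recRange_spec ct_534000 : ∀ i, 534000 ≤ i → i < 535434 → recOK B (rOf RT M) (cjOf RT M) TT.find i = true)))))))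

end Crest.Agent.Lib.Saxl.Tb.G
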