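import Crest.Agent.Lib.Saxl.Tb.G.CR0
import Crest.Agent.Lib.Saxl.Tb.G.CR1
import Crest.Agent.Lib.Saxl.Tb.G.CR2
import Crest.Agent.Lib.Saxl.Tb.G.CR3
import Crest.Agent.Lib.Saxl.Tb.G.CR4
import Crest.Agent.Lib.Saxl.Tb.G.CT0
import Crest.Agent.Lib.Saxl.Tb.G.CT1
import Crest.Agent.Lib.Saxl.Tb.G.CT2
import Crest.Agent.Lib.Saxl.Tb.G.CT3
import Crest.Agent.Lib.Saxl.Tb.G.CT4
import Crest.Agent.Lib.Saxl.Tb.G.CT5
import Crest.Agent.Lib.Saxl.Tb.G.CT6
import Crest.Agent.Lib.Saxl.Tb.G.CT7
import Crest.Agent.Lib.Saxl.Tb.G.CT8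
import Crest.Agent.Lib.Saxl.Tb.G.CL0
import Crest.Agent.Lib.Saxl.Tb.G.CL1
import Crest.Agent.Lib.Saxl.Tb.G.CL2
import Crest.Agent.Lib.Saxl.Tb.G.Base
import Crest.Agent.Lib.Saxl.Family

set_option autoImplicit false
set_option maxRecDepth 100000

namespace Crest.Agent.Lib.Saxl.Tb.G

open Crest.Agent.Lib.Saxl Crest.Agent.Lib.Saxl.Tb

theorem regAll : ∀ id, regOK (rOf RT M) (cjOf RT M) id = true :=
  regOK_all (range_glue (range_glue ((crs_0)) ((crs_1))) (range_glue ((crs_2)) (range_glue ((crs_3)) ((crs_4)))))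

theorem recAll : ∀ i < N, recOK B (rOf RT M) (cjOf RT M) TT.find i = true := by
  intro i hi
  exact (range_glue (range_glue (range_glue ((cts_0)) ((cts_1))) (range_glue ((cts_2)) ((cts_3)))) (range_glue (range_glue ((cts_4)) ((cts_5))) (range_glue ((cts_6)) (range_glue ((cts_7)) ((cts_8)))))) i (Nat.zero_le _) hi

theorem factAll : ∀ i < N, Fact (rOf RT M) TT.find i :=
  sound hB regAll recAll

theorem UU_1 : UU 1 := by
  intro c hc
  have hx : lbeq (conjL (decL FUEL (rOf RT M 0))) (decL FUEL (rOf RT M 0)) = true := by decide +kernel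
  have h := level_final factAll regAll hx (by decide) ((cov_of_chk cl_1_1 : ∀ k, 1 ≤ k → k < 2 → Cov (rOf RT M) TT.find N 0 1 k)) c hc
  have e : decL FUEL (rOf RT M 0) = [1] := by decide +kernel
  unfold S at h
  rw [e] at h
  have e2 : rowsW (wordF 1) = [1] := by decide +kernel
  unfold XF shape
  rw [e2]
  exact h

theorem UU_3 : UU 3 := by
  intro c hc
  have hx : lbeq (conjL (decL FUEL (rOf RT M 46))) (decL FUEL (rOf RT M 46)) = true := by decide +kernel
  have h := level_final factAll regAll hx (by decide) ((cov_of_chk cl_3_1 : ∀ k, 1 ≤ k → k < 4 → Cov (rOf RT M) TT.find N 46 3 k)) c hc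
  have e : decL FUEL (rOf RT M 46) = [2,1] := by decide +kernel
  unfold S at h
  rw [e] at h
  have e2 : rowsW (wordF 3) = [2,1] := by decide +kernel
  unfold XF shape
  rw [e2]
  exact h

theorem UU_5 : UU 5 := by
  intro c hc
  have hx : lbeq (conjL (decL FUEL (rOf RT M 551))) (decL FUEL (rOf RT M 551)) = true := by decide +kernel
  have h := level_final factAll regAll hx (by decide) ((cov_of_chk cl_5_1 : ∀ k, 1 ≤ k → k < 6 → Cov (rOf RT M) TT.find N 551 5 k)) c hc
  have e : decL FUEL (rOf RT M 551) = [3,1,1] := by decide +kernel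
  unfold S at h
  rw [e] at h
  have e2 : rowsW (wordF 5) = [3,1,1] := by decide +kernel
  unfold XF shape
  rw [e2]
  exact h

theorem UU_6 : UU 6 := by
  intro c hc
  have hx : lbeq (conjL (decL FUEL (rOf RT M 554))) (decL FUEL (rOf RT M 554)) = true := by decide +kernel
  have h := level_final factAll regAll hx (by decide) ((cov_of_chk cl_6_1 : ∀ k, 1 ≤ k → k < 7 → Cov (rOf RT M) TT.find N 554 6 k)) c hc
  have e : decL FUEL (rOf RT M 554) = [3,2,1] := by decide +kernel
  unfold S at h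
  rw [e] at h
  have e2 : rowsW (wordF 6) = [3,2,1] := by decide +kernel
  unfold XF shape
  rw [e2]
  exact h

theorem UU_7 : UU 7 := by
  intro c hc
  have hx : lbeq (conjL (decL FUEL (rOf RT M 3163))) (decL FUEL (rOf RT M 3163)) = true := by decide +kernel
  have h := level_final factAll regAll hx (by decide) ((cov_of_chk cl_7_1 : ∀ k, 1 ≤ k → k < 8 → Cov (rOf RT M) TT.find N 3163 7 k)) c hc
  have e : decL FUEL (rOf RT M 3163) = [4,1,1,1] := by decide +kernel
  unfold S at h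
  rw [e] at h
  have e2 : rowsW (wordF 7) = [4,1,1,1] := by decide +kernel
  unfold XF shape
  rw [e2]
  exact h

theorem UU_8 : UU 8 := by
  intro c hc
  have hx : lbeq (conjL (decL FUEL (rOf RT M 3166))) (decL FUEL (rOf RT M 3166)) = true := by decide +kernel
  have h := level_final factAll regAll hx (by decide) ((cov_of_chk cl_8_1 : ∀ k, 1 ≤ k → k < 9 → Cov (rOf RT M) TT.find N 3166 8 k)) c hc
  have e : decL FUEL (rOf RT M 3166) = [4,2,1,1] := by decide +kernel
  unfold S at h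
  rw [e] at h
  have e2 : rowsW (wordF 8) = [4,2,1,1] := by decide +kernel
  unfold XF shape
  rw [e2]
  exact h

theorem UU_10 : UU 10 := by
  intro c hc
  have hx : lbeq (conjL (decL FUEL (rOf RT M 3172))) (decL FUEL (rOf RT M 3172)) = true := by decide +kernel
  have h := level_final factAll regAll hx (by decide) ((cov_of_chk cl_10_1 : ∀ k, 1 ≤ k → k < 11 → Cov (rOf RT M) TT.find N 3172 10 k)) c hc
  have e : decL FUEL (rOf RT M 3172) = [4,3,2,1] := by decide +kernel
  unfold S at h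
  rw [e] at h
  have e2 : rowsW (wordF 10) = [4,3,2,1] := by decide +kernel
  unfold XF shape
  rw [e2]
  exact h

theorem UU_11 : UU 11 := by
  intro c hc
  have hx : lbeq (conjL (decL FUEL (rOf RT M 3182))) (decL FUEL (rOf RT M 3182)) = true := by decide +kernel
  have h := level_final factAll regAll hx (by decide) ((cov_of_chk cl_11_1 : ∀ k, 1 ≤ k → k < 12 → Cov (rOf RT M) TT.find N 3182 11 k)) c hc
  have e : decL FUEL (rOf RT M 3182) = [4,3,3,1] := by decide +kernel
  unfold S at h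
  rw [e] at h
  have e2 : rowsW (wordF 11) = [4,3,3,1] ++ [0] := by decide +kernel
  unfold XF shape
  rw [e2, yd_snoc_zero (by decide) (by decide)]
  exact h

theorem UU_12 : UU 12 := by
  intro c hc
  have hx : lbeq (conjL (decL FUEL (rOf RT M 11234))) (decL FUEL (rOf RT M 11234)) = true := by decide +kernel
  have h := level_final factAll regAll hx (by decide) ((cov_of_chk cl_12_1 : ∀ k, 1 ≤ k → k < 13 → Cov (rOf RT M) TT.find N 11234 12 k)) c hc
  have e : decL FUEL (rOf RT M 11234) = [5,3,2,1,1] := by decide +kernel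
  unfold S at h
  rw [e] at h
  have e2 : rowsW (wordF 12) = [5,3,2,1,1] := by decide +kernel
  unfold XF shape
  rw [e2]
  exact h

theorem UU_13 : UU 13 := by
  intro c hc
  have hx : lbeq (conjL (decL FUEL (rOf RT M 11249))) (decL FUEL (rOf RT M 11249)) = true := by decide +kernel
  have h := level_final factAll regAll hx (by decide) ((cov_of_chk cl_13_1 : ∀ k, 1 ≤ k → k < 14 → Cov (rOf RT M) TT.find N 11249 13 k)) c hc
  have e : decL FUEL (rOf RT M 11249) = [5,3,3,1,1] := by decide +kernel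
  unfold S at h
  rw [e] at h
  have e2 : rowsW (wordF 13) = [5,3,3,1,1] := by decide +kernel
  unfold XF shape
  rw [e2]
  exact h

theorem UU_14 : UU 14 := by
  intro c hc
  have hx : lbeq (conjL (decL FUEL (rOf RT M 11267))) (decL FUEL (rOf RT M 11267)) = true := by decide +kernel
  have h := level_final factAll regAll hx (by decide) ((cov_of_chk cl_14_1 : ∀ k, 1 ≤ k → k < 15 → Cov (rOf RT M) TT.find N 11267 14 k)) c hc
  have e : decL FUEL (rOf RT M 11267) = [5,4,2,2,1] := by decide +kernel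
  unfold S at h
  rw [e] at h
  have e2 : rowsW (wordF 14) = [5,4,2,2,1] := by decide +kernel
  unfold XF shape
  rw [e2]
  exact h

theorem UU_15 : UU 15 := by
  intro c hc
  have hx : lbeq (conjL (decL FUEL (rOf RT M 11284))) (decL FUEL (rOf RT M 11284)) = true := by decide +kernel
  have h := level_final factAll regAll hx (by decide) ((cov_of_chk cl_15_1 : ∀ k, 1 ≤ k → k < 16 → Cov (rOf RT M) TT.find N 11284 15 k)) c hc
  have e : decL FUEL (rOf RT M 11284) = [5,4,3,2,1] := by decide +kernel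
  unfold S at h
  rw [e] at h
  have e2 : rowsW (wordF 15) = [5,4,3,2,1] := by decide +kernel
  unfold XF shape
  rw [e2]
  exact h

theorem UU_16 : UU 16 := by
  intro c hc
  have hx : lbeq (conjL (decL FUEL (rOf RT M 28609))) (decL FUEL (rOf RT M 28609)) = true := by decide +kernel
  have h := level_final factAll regAll hx (by decide) ((cov_of_chk cl_16_1 : ∀ k, 1 ≤ k → k < 17 → Cov (rOf RT M) TT.find N 28609 16 k)) c hc
  have e : decL FUEL (rOf RT M 28609) = [6,4,2,2,1,1] := by decide +kernel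
  unfold S at h
  rw [e] at h
  have e2 : rowsW (wordF 16) = [6,4,2,2,1,1] := by decide +kernel
  unfold XF shape
  rw [e2]
  exact h

theorem UU_17 : UU 17 := by
  intro c hc
  have hx : lbeq (conjL (decL FUEL (rOf RT M 28644))) (decL FUEL (rOf RT M 28644)) = true := by decide +kernel
  have h := level_final factAll regAll hx (by decide) ((cov_of_chk cl_17_1 : ∀ k, 1 ≤ k → k < 18 → Cov (rOf RT M) TT.find N 28644 17 k)) c hc
  have e : decL FUEL (rOf RT M 28644) = [6,4,3,2,1,1] := by decide +kernel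
  unfold S at h
  rw [e] at h
  have e2 : rowsW (wordF 17) = [6,4,3,2,1,1] := by decide +kernel
  unfold XF shape
  rw [e2]
  exact h

theorem UU_18 : UU 18 := by
  intro c hc
  have hx : lbeq (conjL (decL FUEL (rOf RT M 28686))) (decL FUEL (rOf RT M 28686)) = true := by decide +kernel
  have h := level_final factAll regAll hx (by decide) ((cov_of_chk cl_18_1 : ∀ k, 1 ≤ k → k < 19 → Cov (rOf RT M) TT.find N 28686 18 k)) c hc
  have e : decL FUEL (rOf RT M 28686) = [6,5,2,2,2,1] := by decide +kernel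
  unfold S at h
  rw [e] at h
  have e2 : rowsW (wordF 18) = [6,5,2,2,2,1] := by decide +kernel
  unfold XF shape
  rw [e2]
  exact h

theorem UU_19 : UU 19 := by
  intro c hc
  have hx : lbeq (conjL (decL FUEL (rOf RT M 28735))) (decL FUEL (rOf RT M 28735)) = true := by decide +kernel
  have h := level_final factAll regAll hx (by decide) ((cov_of_chk cl_19_1 : ∀ k, 1 ≤ k → k < 20 → Cov (rOf RT M) TT.find N 28735 19 k)) c hc
  have e : decL FUEL (rOf RT M 28735) = [6,5,3,2,2,1] := by decide +kernel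
  unfold S at h
  rw [e] at h
  have e2 : rowsW (wordF 19) = [6,5,3,2,2,1] := by decide +kernel
  unfold XF shape
  rw [e2]
  exact h

theorem UU_20 : UU 20 := by
  intro c hc
  have hx : lbeq (conjL (decL FUEL (rOf RT M 11533))) (decL FUEL (rOf RT M 11533)) = true := by decide +kernel
  have h := level_final factAll regAll hx (by decide) ((cov_of_chk cl_20_1 : ∀ k, 1 ≤ k → k < 21 → Cov (rOf RT M) TT.find N 11533 20 k)) c hc
  have e : decL FUEL (rOf RT M 11533) = [5,5,4,4,2] := by decide +kernel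
  unfold S at h
  rw [e] at h
  have e2 : rowsW (wordF 20) = [5,5,4,4,2] ++ [0] := by decide +kernel
  unfold XF shape
  rw [e2, yd_snoc_zero (by decide) (by decide)]
  exact h

theorem UU_21 : UU 21 := by
  intro c hc
  have hx : lbeq (conjL (decL FUEL (rOf RT M 28887))) (decL FUEL (rOf RT M 28887)) = true := by decide +kernel
  have h := level_final factAll regAll hx (by decide) ((cov_of_chk cl_21_1 : ∀ k, 1 ≤ k → k < 22 → Cov (rOf RT M) TT.find N 28887 21 k)) c hc
  have e : decL FUEL (rOf RT M 28887) = [6,5,4,3,2,1] := by decide +kernel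
  unfold S at h
  rw [e] at h
  have e2 : rowsW (wordF 21) = [6,5,4,3,2,1] := by decide +kernel
  unfold XF shape
  rw [e2]
  exact h

theorem UU_22 : UU 22 := by
  intro c hc
  have hx : lbeq (conjL (decL FUEL (rOf RT M 28985))) (decL FUEL (rOf RT M 28985)) = true := by decide +kernel
  have h := level_final factAll regAll hx (by decide) ((cov_of_chk cl_22_1 : ∀ k, 1 ≤ k → k < 23 → Cov (rOf RT M) TT.find N 28985 22 k)) c hc
  have e : decL FUEL (rOf RT M 28985) = [6,5,4,4,2,1] := by decide +kernel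
  unfold S at h
  rw [e] at h
  have e2 : rowsW (wordF 22) = [6,5,4,4,2,1] ++ [0] := by decide +kernel
  unfold XF shape
  rw [e2, yd_snoc_zero (by decide) (by decide)]
  exact h

theorem UU_23 : UU 23 := by
  intro c hc
  have hx : lbeq (conjL (decL FUEL (rOf RT M 57718))) (decL FUEL (rOf RT M 57718)) = true := by decide +kernel
  have h := level_final factAll regAll hx (by decide) ((cov_of_chk cl_23_1 : ∀ k, 1 ≤ k → k < 24 → Cov (rOf RT M) TT.find N 57718 23 k)) c hc
  have e : decL FUEL (rOf RT M 57718) = [7,5,4,3,2,1,1] := by decide +kernel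
  unfold S at h
  rw [e] at h
  have e2 : rowsW (wordF 23) = [7,5,4,3,2,1,1] := by decide +kernel
  unfold XF shape
  rw [e2]
  exact h

theorem UU_24 : UU 24 := by
  intro c hc
  have hx : lbeq (conjL (decL FUEL (rOf RT M 57889))) (decL FUEL (rOf RT M 57889)) = true := by decide +kernel
  have h := level_final factAll regAll hx (by decide) ((cov_of_chk cl_24_1 : ∀ k, 1 ≤ k → k < 25 → Cov (rOf RT M) TT.find N 57889 24 k)) c hc
  have e : decL FUEL (rOf RT M 57889) = [7,5,4,4,2,1,1] := by decide +kernel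
  unfold S at h
  rw [e] at h
  have e2 : rowsW (wordF 24) = [7,5,4,4,2,1,1] := by decide +kernel
  unfold XF shape
  rw [e2]
  exact h

theorem UU_25 : UU 25 := by
  intro c hc
  have hx : lbeq (conjL (decL FUEL (rOf RT M 58094))) (decL FUEL (rOf RT M 58094)) = true := by decide +kernel
  have h := level_final factAll regAll hx (by decide) ((cov_of_chk cl_25_1 : ∀ k, 1 ≤ k → k < 26 → Cov (rOf RT M) TT.find N 58094 25 k)) c hc
  have e : decL FUEL (rOf RT M 58094) = [7,6,4,3,2,2,1] := by decide +kernel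
  unfold S at h
  rw [e] at h
  have e2 : rowsW (wordF 25) = [7,6,4,3,2,2,1] := by decide +kernel
  unfold XF shape
  rw [e2]
  exact h

theorem UU_26 : UU 26 := by
  intro c hc
  have hx : lbeq (conjL (decL FUEL (rOf RT M 58312))) (decL FUEL (rOf RT M 58312)) = true := by decide +kernel
  have h := level_final factAll regAll hx (by decide) ((cov_of_chk cl_26_1 : ∀ k, 1 ≤ k → k < 27 → Cov (rOf RT M) TT.find N 58312 26 k)) c hc
  have e : decL FUEL (rOf RT M 58312) = [7,6,4,4,2,2,1] := by decide +kernel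
  unfold S at h
  rw [e] at h
  have e2 : rowsW (wordF 26) = [7,6,4,4,2,2,1] := by decide +kernel
  unfold XF shape
  rw [e2]
  exact h

theorem UU_27 : UU 27 := by
  intro c hc
  have hx : lbeq (conjL (decL FUEL (rOf RT M 58594))) (decL FUEL (rOf RT M 58594)) = true := by decide +kernel
  have h := level_final factAll regAll hx (by decide) ((cov_of_chk cl_27_1 : ∀ k, 1 ≤ k → k < 28 → Cov (rOf RT M) TT.find N 58594 27 k)) c hc
  have e : decL FUEL (rOf RT M 58594) = [7,6,5,3,3,2,1] := by decide +kernel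
  unfold S at h
  rw [e] at h
  have e2 : rowsW (wordF 27) = [7,6,5,3,3,2,1] := by decide +kernel
  unfold XF shape
  rw [e2]
  exact h

theorem UU_28 : UU 28 := by
  intro c hc
  have hx : lbeq (conjL (decL FUEL (rOf RT M 58931))) (decL FUEL (rOf RT M 58931)) = true := by decide +kernel
  have h := level_final factAll regAll hx (by decide) ((cov_of_chk cl_28_1 : ∀ k, 1 ≤ k → k < 29 → Cov (rOf RT M) TT.find N 58931 28 k)) c hc
  have e : decL FUEL (rOf RT M 58931) = [7,6,5,4,3,2,1] := by decide +kernel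
  unfold S at h
  rw [e] at h
  have e2 : rowsW (wordF 28) = [7,6,5,4,3,2,1] := by decide +kernel
  unfold XF shape
  rw [e2]
  exact h

theorem UU_29 : UU 29 := by
  intro c hc
  have hx : lbeq (conjL (decL FUEL (rOf RT M 98280))) (decL FUEL (rOf RT M 98280)) = true := by decide +kernel
  have h := level_final factAll regAll hx (by decide) ((cov_of_chk cl_29_1 : ∀ k, 1 ≤ k → k < 30 → Cov (rOf RT M) TT.find N 98280 29 k)) c hc
  have e : decL FUEL (rOf RT M 98280) = [8,6,5,3,3,2,1,1] := by decide +kernel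
  unfold S at h
  rw [e] at h
  have e2 : rowsW (wordF 29) = [8,6,5,3,3,2,1,1] := by decide +kernel
  unfold XF shape
  rw [e2]
  exact h

theorem UU_30 : UU 30 := by
  intro c hc
  have hx : lbeq (conjL (decL FUEL (rOf RT M 98843))) (decL FUEL (rOf RT M 98843)) = true := by decide +kernel
  have h := level_final factAll regAll hx (by decide) ((cov_of_chk cl_30_1 : ∀ k, 1 ≤ k → k < 31 → Cov (rOf RT M) TT.find N 98843 30 k)) c hc
  have e : decL FUEL (rOf RT M 98843) = [8,6,5,4,3,2,1,1] := by decide +kernel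
  unfold S at h
  rw [e] at h
  have e2 : rowsW (wordF 30) = [8,6,5,4,3,2,1,1] := by decide +kernel
  unfold XF shape
  rw [e2]
  exact h

theorem UU_31 : UU 31 := by
  intro c hc
  have hx : lbeq (conjL (decL FUEL (rOf RT M 99478))) (decL FUEL (rOf RT M 99478)) = true := by decide +kernel
  have h := level_final factAll regAll hx (by decide) (range_glue ((cov_of_chk cl_31_1 : ∀ k, 1 ≤ k → k < 16 → Cov (rOf RT M) TT.find N 99478 31 k)) ((cov_of_chk cl_31_16 : ∀ k, 16 ≤ k → k < 32 → Cov (rOf RT M) TT.find N 99478 31 k))) c hc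
  have e : decL FUEL (rOf RT M 99478) = [8,7,5,3,3,2,2,1] := by decide +kernel
  unfold S at h
  rw [e] at h
  have e2 : rowsW (wordF 31) = [8,7,5,3,3,2,2,1] := by decide +kernel
  unfold XF shape
  rw [e2]
  exact h

theorem UU_32 : UU 32 := by
  intro c hc
  have hx : lbeq (conjL (decL FUEL (rOf RT M 100201))) (decL FUEL (rOf RT M 100201)) = true := by decide +kernel
  have h := level_final factAll regAll hx (by decide) (range_glue ((cov_of_chk cl_32_1 : ∀ k, 1 ≤ k → k < 14 → Cov (rOf RT M) TT.find N 100201 32 k)) ((cov_of_chk cl_32_14 : ∀ k, 14 ≤ k → k < 33 → Cov (rOf RT M) TT.find N 100201 32 k))) c hc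
  have e : decL FUEL (rOf RT M 100201) = [8,7,5,4,3,2,2,1] := by decide +kernel
  unfold S at h
  rw [e] at h
  have e2 : rowsW (wordF 32) = [8,7,5,4,3,2,2,1] := by decide +kernel
  unfold XF shape
  rw [e2]
  exact h

theorem UU_33 : UU 33 := by
  intro c hc
  have hx : lbeq (conjL (decL FUEL (rOf RT M 101030))) (decL FUEL (rOf RT M 101030)) = true := by decide +kernel
  have h := level_final factAll regAll hx (by decide) (range_glue ((cov_of_chk cl_33_1 : ∀ k, 1 ≤ k → k < 13 → Cov (rOf RT M) TT.find N 101030 33 k)) ((cov_of_chk cl_33_13 : ∀ k, 13 ≤ k → k < 34 → Cov (rOf RT M) TT.find N 101030 33 k))) c hc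
  have e : decL FUEL (rOf RT M 101030) = [8,7,6,3,3,3,2,1] := by decide +kernel
  unfold S at h
  rw [e] at h
  have e2 : rowsW (wordF 33) = [8,7,6,3,3,3,2,1] := by decide +kernel
  unfold XF shape
  rw [e2]
  exact h

theorem UU_34 : UU 34 := by
  intro c hc
  have hx : lbeq (conjL (decL FUEL (rOf RT M 102009))) (decL FUEL (rOf RT M 102009)) = true := by decide +kernel
  have h := level_final factAll regAll hx (by decide) (range_glue ((cov_of_chk cl_34_1 : ∀ k, 1 ≤ k → k < 12 → Cov (rOf RT M) TT.find N 102009 34 k)) (range_glue ((cov_of_chk cl_34_12 : ∀ k, 12 ≤ k → k < 17 → Cov (rOf RT M) TT.find N 102009 34 k)) ((cov_of_chk cl_34_17 : ∀ k, 17 ≤ k → k < 35 → Cov (rOf RT M) TT.find N 102009 34 k)))) c hc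
  have e : decL FUEL (rOf RT M 102009) = [8,7,6,4,3,3,2,1] := by decide +kernel
  unfold S at h
  rw [e] at h
  have e2 : rowsW (wordF 34) = [8,7,6,4,3,3,2,1] := by decide +kernel
  unfold XF shape
  rw [e2]
  exact h

theorem UU_35 : UU 35 := by
  intro c hc
  have hx : lbeq (conjL (decL FUEL (rOf RT M 64322))) (decL FUEL (rOf RT M 64322)) = true := by decide +kernel
  have h := level_final factAll regAll hx (by decide) (range_glue ((cov_of_chk cl_35_1 : ∀ k, 1 ≤ k → k < 12 → Cov (rOf RT M) TT.find N 64322 35 k)) (range_glue ((cov_of_chk cl_35_12 : ∀ k, 12 ≤ k → k < 15 → Cov (rOf RT M) TT.find N 64322 35 k)) ((cov_of_chk cl_35_15 : ∀ k, 15 ≤ k → k < 36 → Cov (rOf RT M) TT.find N 64322 35 k)))) c hc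
  have e : decL FUEL (rOf RT M 64322) = [7,7,6,5,5,3,2] := by decide +kernel
  unfold S at h
  rw [e] at h
  have e2 : rowsW (wordF 35) = [7,7,6,5,5,3,2] ++ [0] := by decide +kernel
  unfold XF shape
  rw [e2, yd_snoc_zero (by decide) (by decide)]
  exact h

theorem UU_36 : UU 36 := by
  intro c hc
  have hx : lbeq (conjL (decL FUEL (rOf RT M 104591))) (decL FUEL (rOf RT M 104591)) = true := by decide +kernel
  have h := level_final factAll regAll hx (by decide) (range_glue (range_glue ((cov_of_chk cl_36_1 : ∀ k, 1 ≤ k → k < 11 → Cov (rOf RT M) TT.find N 104591 36 k)) ((cov_of_chk cl_36_11 : ∀ k, 11 ≤ k → k < 13 → Cov (rOf RT M) TT.find N 104591 36 k))) (range_glue ((cov_of_chk cl_36_13 : ∀ k, 13 ≤ k → k < 16 → Cov (rOf RT M) TT.find N 104591 36 k)) ((cov_of_chk cl_36_16 : ∀ k, 16 ≤ k → k < 37 → Cov (rOf RT M) TT.find N 104591 36 k)))) c hc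
  have e : decL FUEL (rOf RT M 104591) = [8,7,6,5,4,3,2,1] := by decide +kernel
  unfold S at h
  rw [e] at h
  have e2 : rowsW (wordF 36) = [8,7,6,5,4,3,2,1] := by decide +kernel
  unfold XF shape
  rw [e2]
  exact h

theorem UU_37 : UU 37 := by
  intro c hc
  have hx : lbeq (conjL (decL FUEL (rOf RT M 106327))) (decL FUEL (rOf RT M 106327)) = true := by decide +kernel
  have h := level_final factAll regAll hx (by decide) (range_glue (range_glue ((cov_of_chk cl_37_1 : ∀ k, 1 ≤ k → k < 11 → Cov (rOf RT M) TT.find N 106327 37 k)) ((cov_of_chk cl_37_11 : ∀ k, 11 ≤ k → k < 13 → Cov (rOf RT M) TT.find N 106327 37 k))) (range_glue ((cov_of_chk cl_37_13 : ∀ k, 13 ≤ k → k < 15 → Cov (rOf RT M) TT.find N 106327 37 k)) (range_glue ((cov_of_chk cl_37_15 : ∀ k, 15 ≤ k → k < 19 → Cov (rOf RT M) TT.find N 106327 37 k)) ((cov_of_chk cl_37_19 : ∀ k, 19 ≤ k → k < 38 → Cov (rOf RT M) TT.find N 106327 37 k))))) c hc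
  have e : decL FUEL (rOf RT M 106327) = [8,7,6,5,5,3,2,1] := by decide +kernel
  unfold S at h
  rw [e] at h
  have e2 : rowsW (wordF 37) = [8,7,6,5,5,3,2,1] ++ [0] := by decide +kernel
  unfold XF shape
  rw [e2, yd_snoc_zero (by decide) (by decide)]
  exact h

theorem UU_38 : UU 38 := by
  intro c hc
  have hx : lbeq (conjL (decL FUEL (rOf RT M 153076))) (decL FUEL (rOf RT M 153076)) = true := by decide +kernel
  have h := level_final factAll regAll hx (by decide) (range_glue (range_glue ((cov_of_chk cl_38_1 : ∀ k, 1 ≤ k → k < 11 → Cov (rOf RT M) TT.find N 153076 38 k)) (range_glue ((cov_of_chk cl_38_11 : ∀ k, 11 ≤ k → k < 12 → Cov (rOf RT M) TT.find N 153076 38 k)) ((cov_of_chk cl_38_12 : ∀ k, 12 ≤ k → k < 13 → Cov (rOf RT M) TT.find N 153076 38 k)))) (range_glue ((cov_of_chk cl_38_13 : ∀ k, 13 ≤ k → k < 15 → Cov (rOf RT M) TT.find N 153076 38 k)) (range_glue ((cov_of_chk cl_38_15 : ∀ k, 15 ≤ k → k < 18 → Cov (rOf RT M) TT.find N 153076 38 k)) ((cov_of_chk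 cl_38_18 : ∀ k, 18 ≤ k → k < 39 → Cov (rOf RT M) TT.find N 153076 38 k))))) c hc
  have e : decL FUEL (rOf RT M 153076) = [9,7,6,5,4,3,2,1,1] := by decide +kernel
  unfold S at h
  rw [e] at h
  have e2 : rowsW (wordF 38) = [9,7,6,5,4,3,2,1,1] := by decide +kernel
  unfold XF shape
  rw [e2]
  exact h

theorem UU_39 : UU 39 := by
  intro c hc
  have hx : lbeq (conjL (decL FUEL (rOf RT M 155785))) (decL FUEL (rOf RT M 155785)) = true := by decide +kernel
  have h := level_final factAll regAll hx (by decide) (range_glue (range_glue (range_glue ((cov_of_chk cl_39_1 : ∀ k, 1 ≤ k → k < 11 → Cov (rOf RT M) TT.find N 155785 39 k)) ((cov_of_chk cl_39_11 : ∀ k, 11 ≤ k → k < 12 → Cov (rOf RT M) TT.find N 155785 39 k))) (range_glue ((cov_of_chk cl_39_12 : ∀ k, 12 ≤ k → k < 13 → Cov (rOf RT M) TT.find N 155785 39 k)) ((cov_of_chk cl_39_13 : ∀ k, 13 ≤ k → k < 14 → Cov (rOf RT M) TT.find N 155785 39 k)))) (range_glue (range_glue ((cov_of_chk cl_39_14 : ∀ k, 14 ≤ k → k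 < 15 → Cov (rOf RT M) TT.find N 155785 39 k)) ((cov_of_chk cl_39_15 : ∀ k, 15 ≤ k → k < 17 → Cov (rOf RT M) TT.find N 155785 39 k))) (range_glue ((cov_of_chk cl_39_17 : ∀ k, 17 ≤ k → k < 21 → Cov (rOf RT M) TT.find N 155785 39 k)) ((cov_of_chk cl_39_21 : ∀ k, 21 ≤ k → k < 40 → Cov (rOf RT M) TT.find N 155785 39 k))))) c hc
  have e : decL FUEL (rOf RT M 155785) = [9,7,6,5,5,3,2,1,1] := by decide +kernel
  unfold S at h
  rw [e] at h
  have e2 : rowsW (wordF 39) = [9,7,6,5,5,3,2,1,1] := by decide +kernel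
  unfold XF shape
  rw [e2]
  exact h

theorem UU_40 : UU 40 := by
  intro c hc
  have hx : lbeq (conjL (decL FUEL (rOf RT M 158851))) (decL FUEL (rOf RT M 158851)) = true := by decide +kernel
  have h := level_final factAll regAll hx (by decide) (range_glue (range_glue (range_glue ((cov_of_chk cl_40_1 : ∀ k, 1 ≤ k → k < 11 → Cov (rOf RT M) TT.find N 158851 40 k)) ((cov_of_chk cl_40_11 : ∀ k, 11 ≤ k → k < 12 → Cov (rOf RT M) TT.find N 158851 40 k))) (range_glue ((cov_of_chk cl_40_12 : ∀ k, 12 ≤ k → k < 13 → Cov (rOf RT M) TT.find N 158851 40 k)) ((cov_of_chk cl_40_13 : ∀ k, 13 ≤ k → k < 14 → Cov (rOf RT M) TT.find N 158851 40 k)))) (range_glue (range_glue ((cov_of_chk cl_40_14 : ∀ k, 14 ≤ k → k < 15 → Cov (rOf RT M) TT.find N 158851 40 k)) ((cov_of_chk cl_40_15 : ∀ k, 15 ≤ k → k < 16 → Cov (rOf RT M) TT.find N 158851 40 k))) (range_glue ((cov_of_chk cl_40_16 : ∀ k, 16 ≤ k → k < 18 → Cov (rOf RT M) TT.find N 158851 40 k)) (range_glue ((cov_of_chk cl_40_18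 : ∀ k, 18 ≤ k → k < 22 → Cov (rOf RT M) TT.find N 158851 40 k)) ((cov_of_chk cl_40_22 : ∀ k, 22 ≤ k → k < 41 → Cov (rOf RT M) TT.find N 158851 40 k)))))) c hc
  have e : decL FUEL (rOf RT M 158851) = [9,8,6,5,4,3,2,2,1] := by decide +kernel
  unfold S at h
  rw [e] at h
  have e2 : rowsW (wordF 40) = [9,8,6,5,4,3,2,2,1] := by decide +kernel
  unfold XF shape
  rw [e2]
  exact h

theorem UU_41 : UU 41 := by
  intro c hc
  have hx : lbeq (conjL (decL FUEL (rOf RT M 162453))) (decL FUEL (rOf RT M 162453)) = true := by decide +kernel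
  have h := level_final factAll regAll hx (by decide) (range_glue (range_glue (range_glue ((cov_of_chk cl_41_1 : ∀ k, 1 ≤ k → k < 11 → Cov (rOf RT M) TT.find N 162453 41 k)) ((cov_of_chk cl_41_11 : ∀ k, 11 ≤ k → k < 12 → Cov (rOf RT M) TT.find N 162453 41 k))) (range_glue ((cov_of_chk cl_41_12 : ∀ k, 12 ≤ k → k < 13 → Cov (rOf RT M) TT.find N 162453 41 k)) (range_glue ((cov_of_chk cl_41_13 : ∀ k, 13 ≤ k → k < 14 → Cov (rOf RT M) TT.find N 162453 41 k)) ((cov_of_chk cl_41_14 : ∀ k, 14 ≤ k → k < 15 → Cov (rOf RT M) TT.find N 162453 41 k))))) (range_glue (range_glue ((cov_of_chk cl_41_15 : ∀ k, 15 ≤ k → k < 16 → Cov (rOf RT M) TT.find N 162453 41 k)) ((cov_of_chk cl_41_16 : ∀ k, 16 ≤ k → k < 17 → Cov (rOf RT M) TT.find N 162453 41 k))) (range_glue ((cov_of_chk cl_41_17 : ∀ k, 17 ≤ k → k < 19 → Cov (rOf RT M) TT.find N 162453 41 k)) (range_glue ((cov_of_chk cl_41_19 : ∀ k, 19 ≤ k → k < 23 → Cov (rOf RT M) TT.find N 162453 41 k)) ((cov_of_chk cl_41_23 : ∀ k,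 23 ≤ k → k < 42 → Cov (rOf RT M) TT.find N 162453 41 k)))))) c hc
  have e : decL FUEL (rOf RT M 162453) = [9,8,6,5,5,3,2,2,1] := by decide +kernel
  unfold S at h
  rw [e] at h
  have e2 : rowsW (wordF 41) = [9,8,6,5,5,3,2,2,1] := by decide +kernel
  unfold XF shape
  rw [e2]
  exact h

theorem UU_42 : UU 42 := by
  intro c hc
  have hx : lbeq (conjL (decL FUEL (rOf RT M 166592))) (decL FUEL (rOf RT M 166592)) = true := by decide +kernel
  have h := level_final factAll regAll hx (by decide) (range_glue (range_glue (range_glue ((cov_of_chk cl_42_1 : ∀ k, 1 ≤ k → k < 11 → Cov (rOf RT M) TT.find N 166592 42 k)) ((cov_of_chk cl_42_11 : ∀ k, 11 ≤ k → k < 12 → Cov (rOf RT M) TT.find N 166592 42 k))) (range_glue ((cov_of_chk cl_42_12 : ∀ k, 12 ≤ k → k < 13 → Cov (rOf RT M) TT.find N 166592 42 k)) (range_glue ((cov_of_chk cl_42_13 : ∀ k, 13 ≤ k → k < 14 → Cov (rOf RT M) TT.find N 166592 42 k)) ((cov_of_chk cl_42_14 : ∀ k, 14 ≤ k → k < 15 → Cov (rOf RT M) TT.find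 N 166592 42 k))))) (range_glue (range_glue ((cov_of_chk cl_42_15 : ∀ k, 15 ≤ k → k < 16 → Cov (rOf RT M) TT.find N 166592 42 k)) (range_glue ((cov_of_chk cl_42_16 : ∀ k, 16 ≤ k → k < 17 → Cov (rOf RT M) TT.find N 166592 42 k)) ((cov_of_chk cl_42_17 : ∀ k, 17 ≤ k → k < 18 → Cov (rOf RT M) TT.find N 166592 42 k)))) (range_glue ((cov_of_chk cl_42_18 : ∀ k, 18 ≤ k → k < 20 → Cov (rOf RT M) TT.find N 166592 42 k)) (range_glue ((cov_of_chk cl_42_20 : ∀ k, 20 ≤ k → k < 24 → Cov (rOf RT M) TT.find N 166592 42 k)) ((cov_of_chk cl_42_24 : ∀ k, 24 ≤ k → k < 43 → Cov (rOf RT M) TT.find N 166592 42 k)))))) c hc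
  have e : decL FUEL (rOf RT M 166592) = [9,8,7,5,4,3,3,2,1] := by decide +kernel
  unfold S at h
  rw [e] at h
  have e2 : rowsW (wordF 42) = [9,8,7,5,4,3,3,2,1] := by decide +kernel
  unfold XF shape
  rw [e2]
  exact h

theorem UU_43 : UU 43 := by
  intro c hc
  have hx : lbeq (conjL (decL FUEL (rOf RT M 171143))) (decL FUEL (rOf RT M 171143)) = true := by decide +kernel
  have h := level_final factAll regAll hx (by decide) (range_glue (range_glue (range_glue ((cov_of_chk cl_43_1 : ∀ k, 1 ≤ k → k < 10 → Cov (rOf RT M) TT.find N 171143 43 k)) (range_glue ((cov_of_chk cl_43_10 : ∀ k, 10 ≤ k → k < 11 → Cov (rOf RT M) TT.find N 171143 43 k)) ((cov_of_chk cl_43_11 : ∀ k, 11 ≤ k → k < 12 → Cov (rOf RT M) TT.find N 171143 43 k)))) (range_glue ((cov_of_chk cl_43_12 : ∀ k, 12 ≤ k → k < 13 → Cov (rOf RT M) TT.find N 171143 43 k)) (range_glue ((cov_of_chk cl_43_13 : ∀ k, 13 ≤ k → k < 14 → Cov (rOf RT M) TT.find N 171143 43 k)) ((cov_of_chk cl_43_14 : ∀ k, 14 ≤ k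 → k < 15 → Cov (rOf RT M) TT.find N 171143 43 k))))) (range_glue (range_glue ((cov_of_chk cl_43_15 : ∀ k, 15 ≤ k → k < 16 → Cov (rOf RT M) TT.find N 171143 43 k)) (range_glue ((cov_of_chk cl_43_16 : ∀ k, 16 ≤ k → k < 17 → Cov (rOf RT M) TT.find N 171143 43 k)) ((cov_of_chk cl_43_17 : ∀ k, 17 ≤ k → k < 18 → Cov (rOf RT M) TT.find N 171143 43 k)))) (range_glue (range_glue ((cov_of_chk cl_43_18 : ∀ k, 18 ≤ k → k < 19 → Cov (rOf RT M) TT.find N 171143 43 k)) ((cov_of_chk cl_43_19 : ∀ k, 19 ≤ k → k < 21 → Cov (rOf RT M) TT.find N 171143 43 k))) (range_glue ((cov_of_chk cl_43_21 : ∀ k, 21 ≤ k → k < 25 → Cov (rOf RT M) TT.find N 171143 43 k)) ((cov_of_chk cl_43_25 : ∀ k, 25 ≤ k → k < 44 → Cov (rOf RT M) TT.find N 171143 43 k)))))) c hc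
  have e : decL FUEL (rOf RT M 171143) = [9,8,7,5,5,3,3,2,1] := by decide +kernel
  unfold S at h
  rw [e] at h
  have e2 : rowsW (wordF 43) = [9,8,7,5,5,3,3,2,1] := by decide +kernel
  unfold XF shape
  rw [e2]
  exact h

theorem UU_44 : UU 44 := by
  intro c hc
  have hx : lbeq (conjL (decL FUEL (rOf RT M 176684))) (decL FUEL (rOf RT M 176684)) = true := by decide +kernel
  have h := level_final factAll regAll hx (by decide) (range_glue (range_glue (range_glue ((cov_of_chk cl_44_1 : ∀ k, 1 ≤ k → k < 10 → Cov (rOf RT M) TT.find N 176684 44 k)) (range_glue ((cov_of_chk cl_44_10 : ∀ k, 10 ≤ k → k < 11 → Cov (rOf RT M) TT.find N 176684 44 k)) ((cov_of_chk cl_44_11 : ∀ k, 11 ≤ k → k < 12 → Cov (rOf RT M) TT.find N 176684 44 k)))) (range_glue (range_glue ((cov_of_chk cl_44_12 : ∀ k, 12 ≤ k → k < 13 → Cov (rOf RT M) TT.find N 176684 44 k)) ((cov_of_chk cl_44_13 : ∀ k, 13 ≤ k → k < 14 → Cov (rOf RT M) TT.find N 176684 44 k))) (range_glue ((cov_of_chk cl_44_14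 : ∀ k, 14 ≤ k → k < 15 → Cov (rOf RT M) TT.find N 176684 44 k)) ((cov_of_chk cl_44_15 : ∀ k, 15 ≤ k → k < 16 → Cov (rOf RT M) TT.find N 176684 44 k))))) (range_glue (range_glue ((cov_of_chk cl_44_16 : ∀ k, 16 ≤ k → k < 17 → Cov (rOf RT M) TT.find N 176684 44 k)) (range_glue ((cov_of_chk cl_44_17 : ∀ k, 17 ≤ k → k < 18 → Cov (rOf RT M) TT.find N 176684 44 k)) ((cov_of_chk cl_44_18 : ∀ k, 18 ≤ k → k < 19 → Cov (rOf RT M) TT.find N 176684 44 k)))) (range_glue (range_glue ((cov_of_chk cl_44_19 : ∀ k, 19 ≤ k → k < 20 → Cov (rOf RT M) TT.find N 176684 44 k)) ((cov_of_chk cl_44_20 : ∀ k, 20 ≤ k → k < 22 → Cov (rOf RT M) TT.find N 176684 44 k))) (range_glue ((cov_of_chk cl_44_22 : ∀ k, 22 ≤ k → k < 26 → Cov (rOf RT M) TT.find N 176684 44 k)) ((cov_of_chk cl_44_26 : ∀ k, 26 ≤ k → k < 45 → Cov (rOf RT M) TT.find N 176684 44 k)))))) c hc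
  have e : decL FUEL (rOf RT M 176684) = [9,8,7,6,4,4,3,2,1] := by decide +kernel
  unfold S at h
  rw [e] at h
  have e2 : rowsW (wordF 44) = [9,8,7,6,4,4,3,2,1] := by decide +kernel
  unfold XF shape
  rw [e2]
  exact h

theorem UU_45 : UU 45 := by
  intro c hc
  have hx : lbeq (conjL (decL FUEL (rOf RT M 182927))) (decL FUEL (rOf RT M 182927)) = true := by decide +kernel
  have h := level_final factAll regAll hx (by decide) (range_glue (range_glue (range_glue ((cov_of_chk cl_45_1 : ∀ k, 1 ≤ k → k < 10 → Cov (rOf RT M) TT.find N 182927 45 k)) (range_glue ((cov_of_chk cl_45_10 : ∀ k, 10 ≤ k → k < 11 → Cov (rOf RT M) TT.find N 182927 45 k)) ((cov_of_chk cl_45_11 : ∀ k, 11 ≤ k → k < 12 → Cov (rOf RT M) TT.find N 182927 45 k)))) (range_glue (range_glue ((cov_of_chk cl_45_12 : ∀ k, 12 ≤ k → k < 13 → Cov (rOf RT M) TT.find N 182927 45 k)) ((cov_of_chk cl_45_13 : ∀ k, 13 ≤ k → k < 14 → Cov (rOf RT M) TT.find N 182927 45 k))) (range_glue ((cov_of_chk cl_45_14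 : ∀ k, 14 ≤ k → k < 15 → Cov (rOf RT M) TT.find N 182927 45 k)) ((cov_of_chk cl_45_15 : ∀ k, 15 ≤ k → k < 16 → Cov (rOf RT M) TT.find N 182927 45 k))))) (range_glue (range_glue (range_glue ((cov_of_chk cl_45_16 : ∀ k, 16 ≤ k → k < 17 → Cov (rOf RT M) TT.find N 182927 45 k)) ((cov_of_chk cl_45_17 : ∀ k, 17 ≤ k → k < 18 → Cov (rOf RT M) TT.find N 182927 45 k))) (range_glue ((cov_of_chk cl_45_18 : ∀ k, 18 ≤ k → k < 19 → Cov (rOf RT M) TT.find N 182927 45 k)) ((cov_of_chk cl_45_19 : ∀ k, 19 ≤ k → k < 20 → Cov (rOf RT M) TT.find N 182927 45 k)))) (range_glue (range_glue ((cov_of_chk cl_45_20 : ∀ k, 20 ≤ k → k < 21 → Cov (rOf RT M) TT.find N 182927 45 k)) ((cov_of_chk cl_45_21 : ∀ k, 21 ≤ k → k < 23 → Cov (rOf RT M) TT.find N 182927 45 k))) (range_glue ((cov_of_chk cl_45_23 : ∀ k, 23 ≤ k → k < 27 → Cov (rOf RT M) TT.find N 182927 45 k)) ((cov_of_chk cl_45_27 : ∀ k, 27 ≤ k → k < 46 → Cov (rOf RT M) TT.find N 182927 45 k)))))) c hc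
  have e : decL FUEL (rOf RT M 182927) = [9,8,7,6,5,4,3,2,1] := by decide +kernel
  unfold S at h
  rw [e] at h
  have e2 : rowsW (wordF 45) = [9,8,7,6,5,4,3,2,1] := by decide +kernel
  unfold XF shape
  rw [e2]
  exact h

/-- **The table**: `UU n` for all `n` up to the bound, except the three exceptions. -/
theorem UU_table (n : ℕ) (h0 : n ≠ 0) (h2 : n ≠ 2) (h4 : n ≠ 4) (h9 : n ≠ 9) (hn : n ≤ 45) : UU n := by
  interval_cases n
  · exact absurd rfl h0
  · exact UU_1
  · exact absurd rfl h2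
  · exact UU_3
  · exact absurd rfl h4
  · exact UU_5
  · exact UU_6
  · exact UU_7
  · exact UU_8
  · exact absurd rfl h9
  · exact UU_10
  · exact UU_11
  · exact UU_12
  · exact UU_13
  · exact UU_14
  · exact UU_15
  · exact UU_16
  · exact UU_17
  · exact UU_18
  · exact UU_19
  · exact UU_20
  · exact UU_21
  · exact UU_22
  · exact UU_23
  · exact UU_24
  · exact UU_25
  · exact UU_26
  · exact UU_27
  · exact UU_28
  · exact UU_29
  · exact UU_30
  · exact UU_31
  · exact UU_32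
  · exact UU_33
  · exact UU_34
  · exact UU_35
  · exact UU_36
  · exact UU_37
  · exact UU_38
  · exact UU_39
  · exact UU_40
  · exact UU_41
  · exact UU_42
  · exact UU_43
  · exact UU_44
  · exact UU_45

end Crest.Agent.Lib.Saxl.Tb.G
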