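import Crest.Agent.Lib.Saxl.Tb.G.R0
import Crest.Agent.Lib.Saxl.Tb.G.R1
import Crest.Agent.Lib.Saxl.Tb.G.T0
import Crest.Agent.Lib.Saxl.Tb.G.T1
import Crest.Agent.Lib.Saxl.Tb.G.T2
import Crest.Agent.Lib.Saxl.Tb.G.T3
import Crest.Agent.Lib.Saxl.Tb.G.L0

set_option autoImplicit false

namespace Crest.Agent.Lib.Saxl.Tb.G

open Crest.Agent.Lib.Saxl Crest.Agent.Lib.Saxl.Tb

abbrev M : ℕ := 327695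
abbrev N : ℕ := 535434

def RT : NT := (.node (nat_lit 229588) R0 R1)

def TT : NT := (.node (nat_lit 290280) (.node (nat_lit 145140) T0 T1) (.node (nat_lit 435420) T2 T3))

def LT : NT := L0

/-- The externally proved facts. -/
def B : List (List ℕ × List ℕ × List ℕ) := [
  ([2,1], [2,1], [2,1]),
  ([2,2], [2,2], [2,2]),
  ([2,2,2], [3,2,1], [3,2,1]),
  ([2,2,1], [2,2,1], [2,2,1]),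
  ([2,2,2], [3,1,1,1], [4,1,1]),
  ([3,3,2], [4,2,1,1], [4,2,1,1]),
  ([2,2,2,2,2], [4,3,2,1], [4,3,2,1]),
  ([2,2,2], [2,2,2], [2,2,2]),
  ([2,2,1,1,1], [3,2,2], [3,2,2]),
  ([3,2,2,2], [3,3,3], [3,3,3]),
  ([3,3,3,1], [3,3,3,1], [4,2,2,1,1]),
  ([3,3,3,2], [4,3,3,1], [4,3,3,1]),
  ([3,3,2,2], [3,3,3,1], [3,3,3,1]),
  ([4,3,3,3], [5,3,3,1,1], [5,3,3,1,1]),
  ([4,4,3,2], [5,3,3,1,1], [5,3,3,1,1]),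
  ([3,2,2], [3,2,2], [3,3,1]),
  ([2,2,2,1], [3,2,2], [3,2,2]),
  ([2,2,2,1,1], [3,3,1,1], [3,3,1,1]),
  ([3,3,2,2,2], [3,3,2,2,2], [3,3,2,2,2]),
  ([2,2,2,2,2], [3,3,3,1], [3,3,3,1]),
  ([2,2,2,2,1], [3,3,2,1], [3,3,3]),
  ([2,2,1,1], [2,2,2], [3,2,1]),
  ([2,2,2,2,1], [3,2,2,1,1], [3,3,3]),
  ([2,2,2,1,1], [3,3,2], [3,3,2]),
  ([2,2,2,2], [3,3,2], [3,3,2]),
  ([2,2,2,2,1,1], [3,3,2,2], [3,3,2,2]),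
  ([3,3,3], [3,3,3], [3,3,3]),
  ([2,2,2,2], [3,2,2,1], [3,3,2]),
  ([3,2,2,2], [3,2,2,2], [3,3,1,1,1]),
  ([3,2,1,1,1,1], [3,2,2,2], [3,2,2,2]),
  ([3,3,1,1,1,1], [3,3,1,1,1,1], [3,3,1,1,1,1]),
  ([3,3,1,1,1], [3,3,1,1,1], [3,3,3]),
  ([2,2,2,1], [3,2,2], [3,3,1]),
  ([3,2,1,1], [3,2,2], [3,2,2]),
  ([3,3,2], [3,3,2], [4,2,1,1]),
  ([2,2,2,1,1,1], [3,3,3], [3,3,3]),
  ([3,2,2,2], [3,2,2,2], [3,3,3]),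
  ([3,3,3,1], [3,3,3,1], [4,4,1,1]),
  ([3,3,3], [3,3,3], [4,2,1,1,1]),
  ([2,2,2,2,1,1], [3,3,3,1], [3,3,3,1]),
  ([3,3,3], [3,3,3], [4,2,2,1]),
  ([3,2,2,2,1], [3,3,3,1], [3,3,3,1]),
  ([2,2,2,2], [3,2,1,1,1], [3,3,2]),
  ([2,2,2,2,2], [3,2,2,2,1], [4,4,2]),
  ([3,3,2,1], [3,3,2,1], [3,3,2,1]),
  ([2,2,2,2,2], [3,2,2,2,1], [3,3,3,1]),
  ([3,3,2], [3,3,2], [3,3,2]),
  ([3,3,1,1], [3,3,1,1], [3,3,2]),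
  ([3,3,1,1], [3,3,1,1], [3,3,1,1]),
  ([2,2,2,2,2], [3,3,2,1,1], [3,3,2,2]),
  ([3,3,1,1,1,1], [3,3,2,2], [3,3,2,2]),
  ([2,2,2,2,2], [3,3,3,1], [4,3,1,1,1]),
  ([3,2,2,2], [3,2,2,2], [4,3,2]),
  ([3,3,2,2], [3,3,2,2], [4,4,1,1]),
  ([3,3,2,2], [3,3,2,2], [4,3,3]),
  ([3,3,2,2], [3,3,2,2], [3,3,2,2]),
  ([2,2,2,1,1,1], [3,3,3], [4,2,2,1])]

end Crest.Agent.Lib.Saxl.Tb.G
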